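import Vale.Agent.P344.H260.Kernel

/-!
# Scaled radix-2 butterfly networks
-/

namespace Vale.Agent.P344.H260

open Set

theorem zt_two : zt 2 = -1 := (zt_prim two_ne_zero).eq_neg_one_of_two_right

theorem zt_half (n : ℕ) : zt (2 ^ (n + 1)) ^ 2 ^ n = -1 := by
  rw [pow_succ, mul_comm, zt_pow_right (by positivity) two_ne_zero, zt_two]

/-- Exponents that agree modulo `2 ^ n` give the same root of unity of order `2 ^ (n + 1)`, up to
sign. -/
theorem zt_congr {n a b : ℕ} (h : a % 2 ^ n = b % 2 ^ n) :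
    zt (2 ^ (n + 1)) ^ a = zt (2 ^ (n + 1)) ^ b ∨ zt (2 ^ (n + 1)) ^ a = -zt (2 ^ (n + 1)) ^ b := by
  have key : ∀ c : ℕ, zt (2 ^ (n + 1)) ^ c = zt (2 ^ (n + 1)) ^ (c % 2 ^ n) ∨
      zt (2 ^ (n + 1)) ^ c = -zt (2 ^ (n + 1)) ^ (c % 2 ^ n) := by
    intro c
    have h1 : zt (2 ^ (n + 1)) ^ c =
        (-1) ^ (c / 2 ^ n) * zt (2 ^ (n + 1)) ^ (c % 2 ^ n) := by
      conv_lhs => rw [← Nat.div_add_mod c (2 ^ n)]
      rw [pow_add, pow_mul, zt_half]
    rcases neg_one_pow_eq_or ℂ (c / 2 ^ n) with h2 | h2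
    · left; rw [h1, h2, one_mul]
    · right; rw [h1, h2, neg_one_mul]
  rcases key a with h1 | h1 <;> rcases key b with h2 | h2
  · left; rw [h1, h2, h]
  · right; rw [h1, h2, h, neg_neg]
  · right; rw [h1, h2, h]
  · left; rw [h1, h2, h]

/-- The exponent of the scale of value `(l, b, k)` of the network; `θ (l + 1) b k` (`k < 2 ^ l`)
belongs to the butterfly that computes the values `(l + 1, b, k)` and `(l + 1, b, k + 2 ^ l)`. -/
def ex (θ : ℕ → ℕ → ℕ → ℕ) : ℕ → ℕ → ℕ → ℕ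
  | 0, b, _ => θ 0 b 0
  | l + 1, b, k => θ (l + 1) b (k % 2 ^ l)

/-- The number of scalar multiplications in front of the butterfly `(l + 1, b, k)`. -/
def bad (n : ℕ) (θ : ℕ → ℕ → ℕ → ℕ) (l b k : ℕ) : ℕ :=
  (if ex θ (l + 1) b k % 2 ^ n = ex θ l b k % 2 ^ n then 0 else 1) +
  (if (ex θ (l + 1) b k + k * 2 ^ (n - l)) % 2 ^ n = ex θ l (b + 2 ^ (n - l)) k % 2 ^ n
    then 0 else 1)

/-- The value `(l, b, k)` of the network, without scale. -/
noncomputable def yv (n : ℕ) (a : ℕ → ℂ) (l b k : ℕ) (x : ℕ → ℂ) : ℂ :=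
  D (2 ^ l) k fun j => a (b + 2 ^ (n + 1 - l) * j) * x (b + 2 ^ (n + 1 - l) * j)

theorem yv_succ {n l : ℕ} (hl : l ≤ n) (a : ℕ → ℂ) (b k : ℕ) (x : ℕ → ℂ) :
    yv n a (l + 1) b k x = yv n a l b k x +
        zt (2 ^ (n + 1)) ^ (k * 2 ^ (n - l)) * yv n a l (b + 2 ^ (n - l)) k x ∧
    yv n a (l + 1) b (k + 2 ^ l) x = yv n a l b k x -
        zt (2 ^ (n + 1)) ^ (k * 2 ^ (n - l)) * yv n a l (b + 2 ^ (n - l)) k x := by
  have h2 : (2 : ℕ) ^ (l + 1) = 2 * 2 ^ l := by rw [pow_succ, mul_comm]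
  have e1 : (2 : ℕ) ^ (n + 1 - l) = 2 ^ (n - l) * 2 := by
    rw [show n + 1 - l = (n - l) + 1 by omega, pow_succ]
  have e2 : n + 1 - (l + 1) = n - l := by omega
  have h3 : zt (2 ^ (n + 1)) ^ (k * 2 ^ (n - l)) = zt (2 * 2 ^ l) ^ k := by
    have h4 : (2 : ℕ) ^ (n + 1) = 2 ^ (n - l) * (2 * 2 ^ l) := by
      rw [← h2, ← pow_add]
      congr 1
      omega
    rw [mul_comm k, pow_mul, h4, zt_pow_left (by positivity) (by positivity)]
  have main : ∀ k1 : ℕ, yv n a (l + 1) b (k + 2 ^ l * k1) x = yv n a l b k x +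
      (-1) ^ k1 * (zt (2 ^ (n + 1)) ^ (k * 2 ^ (n - l)) * yv n a l (b + 2 ^ (n - l)) k x) := by
    intro k1
    unfold yv
    rw [e2, h2, D_split (by positivity) two_ne_zero, Finset.sum_range_succ, Finset.sum_range_one,
      h3, e1]
    have f1 : (fun j1 => a (b + 2 ^ (n - l) * (0 + 2 * j1)) * x (b + 2 ^ (n - l) * (0 + 2 * j1))) =
        fun j => a (b + 2 ^ (n - l) * 2 * j) * x (b + 2 ^ (n - l) * 2 * j) := by
      funext j
      have : b + 2 ^ (n - l) * (0 + 2 * j) = b + 2 ^ (n - l) * 2 * j := by ring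
      rw [this]
    have f2 : (fun j1 => a (b + 2 ^ (n - l) * (1 + 2 * j1)) * x (b + 2 ^ (n - l) * (1 + 2 * j1))) =
        fun j => a (b + 2 ^ (n - l) + 2 ^ (n - l) * 2 * j) *
          x (b + 2 ^ (n - l) + 2 ^ (n - l) * 2 * j) := by
      funext j
      have : b + 2 ^ (n - l) * (1 + 2 * j) = b + 2 ^ (n - l) + 2 ^ (n - l) * 2 * j := by ring
      rw [this]
    rw [f1, f2, zt_two, zero_mul, zero_mul, pow_zero, pow_zero, one_mul, one_mul, one_mul,
      one_mul]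
  constructor
  · have := main 0
    rwa [mul_zero, add_zero, pow_zero, one_mul] at this
  · have := main 1
    rwa [mul_one, pow_one, neg_one_mul, ← sub_eq_add_neg] at this

/-- The values of level `l`, with their scales. -/
def lev (n : ℕ) (θ : ℕ → ℕ → ℕ → ℕ) (a : ℕ → ℂ) (l : ℕ) : Set ((ℕ → ℂ) → ℂ) :=
  {u | ∃ b < 2 ^ (n + 1 - l), ∃ k < 2 ^ l,
    u = fun x => zt (2 ^ (n + 1)) ^ ex θ l b k * yv n a l b k x}

theorem cst_le_of {c : ℂ} {p : Prop} [Decidable p] (h : p → c = 1 ∨ c = -1) :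
    cst c ≤ if p then 0 else 1 := by
  classical
  unfold cst
  split_ifs with h1 h2 <;> first | omega | exact absurd (h ‹_›) ‹_›

theorem div_eq_of {u v : ℂ} (hv : v ≠ 0) (h : u = v ∨ u = -v) : u / v = 1 ∨ u / v = -1 := by
  rcases h with rfl | rfl
  · left; exact div_self hv
  · right; rw [neg_div, div_self hv]

theorem ex_add (θ : ℕ → ℕ → ℕ → ℕ) (l b k : ℕ) :
    ex θ (l + 1) b (k + 2 ^ l) = ex θ (l + 1) b k := by
  simp [ex]

theorem level_step {n l : ℕ} (hl : l ≤ n) (θ : ℕ → ℕ → ℕ → ℕ) (a : ℕ → ℂ) :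
    Can (lev n θ a l) (∑ b ∈ Finset.range (2 ^ (n - l)), ∑ k ∈ Finset.range (2 ^ l),
      (bad n θ l b k + 2)) (lev n θ a (l + 1)) := by
  set Z : ℂ := zt (2 ^ (n + 1)) with hZ
  have hZ0 : Z ≠ 0 := zt_ne_zero _
  have e1 : (2 : ℕ) ^ (n + 1 - l) = 2 ^ (n - l) + 2 ^ (n - l) := by
    rw [show n + 1 - l = (n - l) + 1 by omega, pow_succ]
    ring
  have key : ∀ b < 2 ^ (n - l), ∀ k < 2 ^ l, Can (lev n θ a l) (bad n θ l b k + 2)
      {u | u = (fun x => Z ^ ex θ (l + 1) b k * yv n a (l + 1) b k x) ∨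
        u = fun x => Z ^ ex θ (l + 1) b (k + 2 ^ l) * yv n a (l + 1) b (k + 2 ^ l) x} := by
    intro b hb k hk
    have m1 : (fun x => Z ^ ex θ l b k * yv n a l b k x) ∈ lev n θ a l :=
      ⟨b, by omega, k, hk, rfl⟩
    have m2 : (fun x => Z ^ ex θ l (b + 2 ^ (n - l)) k * yv n a l (b + 2 ^ (n - l)) k x) ∈
        lev n θ a l := ⟨b + 2 ^ (n - l), by omega, k, hk, rfl⟩
    have h1 := Can.butterfly m1 m2 (Z ^ ex θ (l + 1) b k / Z ^ ex θ l b k)
      (Z ^ (ex θ (l + 1) b k + k * 2 ^ (n - l)) / Z ^ ex θ l (b + 2 ^ (n - l)) k)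
    have c1 : cst (Z ^ ex θ (l + 1) b k / Z ^ ex θ l b k) ≤
        if ex θ (l + 1) b k % 2 ^ n = ex θ l b k % 2 ^ n then 0 else 1 :=
      cst_le_of fun h => div_eq_of (pow_ne_zero _ hZ0) (zt_congr h)
    have c2 : cst (Z ^ (ex θ (l + 1) b k + k * 2 ^ (n - l)) / Z ^ ex θ l (b + 2 ^ (n - l)) k) ≤
        if (ex θ (l + 1) b k + k * 2 ^ (n - l)) % 2 ^ n = ex θ l (b + 2 ^ (n - l)) k % 2 ^ n
          then 0 else 1 :=
      cst_le_of fun h => div_eq_of (pow_ne_zero _ hZ0) (zt_congr h)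
    refine h1.mono Subset.rfl (Nat.add_le_add_right (Nat.add_le_add c1 c2) 2) ?_
    have s1 : ∀ x, Z ^ ex θ (l + 1) b k / Z ^ ex θ l b k * (Z ^ ex θ l b k * yv n a l b k x) =
        Z ^ ex θ (l + 1) b k * yv n a l b k x := by
      intro x
      rw [← mul_assoc, div_mul_cancel₀ _ (pow_ne_zero _ hZ0)]
    have s2 : ∀ x, Z ^ (ex θ (l + 1) b k + k * 2 ^ (n - l)) / Z ^ ex θ l (b + 2 ^ (n - l)) k *
        (Z ^ ex θ l (b + 2 ^ (n - l)) k * yv n a l (b + 2 ^ (n - l)) k x) =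
        Z ^ ex θ (l + 1) b k * (Z ^ (k * 2 ^ (n - l)) * yv n a l (b + 2 ^ (n - l)) k x) := by
      intro x
      rw [← mul_assoc, div_mul_cancel₀ _ (pow_ne_zero _ hZ0), pow_add, mul_assoc]
    rintro u (rfl | rfl)
    · left
      funext x
      rw [(yv_succ hl a b k x).1, mul_add]
      change _ = Z ^ ex θ (l + 1) b k / Z ^ ex θ l b k * (Z ^ ex θ l b k * yv n a l b k x) +
        Z ^ (ex θ (l + 1) b k + k * 2 ^ (n - l)) / Z ^ ex θ l (b + 2 ^ (n - l)) k *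
        (Z ^ ex θ l (b + 2 ^ (n - l)) k * yv n a l (b + 2 ^ (n - l)) k x)
      rw [s1, s2]
    · right
      funext x
      rw [(yv_succ hl a b k x).2, mul_sub, ex_add]
      change _ = Z ^ ex θ (l + 1) b k / Z ^ ex θ l b k * (Z ^ ex θ l b k * yv n a l b k x) -
        Z ^ (ex θ (l + 1) b k + k * 2 ^ (n - l)) / Z ^ ex θ l (b + 2 ^ (n - l)) k *
        (Z ^ ex θ l (b + 2 ^ (n - l)) k * yv n a l (b + 2 ^ (n - l)) k x)
      rw [s1, s2]
  have h2 := Can.range (S := lev n θ a l) (2 ^ (n - l))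
    (fun b => ∑ k ∈ Finset.range (2 ^ l), (bad n θ l b k + 2)) _ fun b hb =>
      Can.range (S := lev n θ a l) (2 ^ l) (fun k => bad n θ l b k + 2) _ fun k hk => key b hb k hk
  refine h2.mono Subset.rfl le_rfl ?_
  rintro u ⟨b, hb, k, hk, rfl⟩
  have e2 : n + 1 - (l + 1) = n - l := by omega
  rw [e2] at hb
  rw [pow_succ] at hk
  by_cases hk' : k < 2 ^ l
  · exact ⟨b, hb, k, hk', Or.inl rfl⟩
  · refine ⟨b, hb, k - 2 ^ l, by omega, Or.inr ?_⟩
    rw [Nat.sub_add_cancel (by omega)]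

theorem levels {n : ℕ} (θ : ℕ → ℕ → ℕ → ℕ) (a : ℕ → ℂ) (l : ℕ) (hl : l ≤ n + 1) :
    Can (lev n θ a 0) (∑ i ∈ Finset.range l, ∑ b ∈ Finset.range (2 ^ (n - i)),
      ∑ k ∈ Finset.range (2 ^ i), (bad n θ i b k + 2)) (lev n θ a l) := by
  induction l with
  | zero => exact Can.of_subset Subset.rfl _
  | succ l ih =>
    rw [Finset.sum_range_succ]
    exact (ih (by omega)).trans (level_step (by omega) θ a)

/-- A scaled radix-2 butterfly network is a circuit for `diag(b) F_q diag(a)`, `q = 2 ^ (n + 1)`,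
with `(n + 1) q` additions and one scalar multiplication for every edge where the scales do not
match. -/
theorem ker_network (n : ℕ) (θ : ℕ → ℕ → ℕ → ℕ) :
    Ker (2 ^ (n + 1)) ((n + 1) * 2 ^ (n + 1) + ∑ l ∈ Finset.range (n + 1),
      ∑ b ∈ Finset.range (2 ^ (n - l)), ∑ k ∈ Finset.range (2 ^ l), bad n θ l b k) := by
  have hZ0 : zt (2 ^ (n + 1)) ≠ 0 := zt_ne_zero _
  refine ⟨fun j => (zt (2 ^ (n + 1)) ^ θ 0 j 0)⁻¹, fun k => zt (2 ^ (n + 1)) ^ ex θ (n + 1) 0 k,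
    fun j => inv_ne_zero (pow_ne_zero _ hZ0), fun k => pow_ne_zero _ hZ0, ?_⟩
  refine (levels (n := n) θ (fun j => (zt (2 ^ (n + 1)) ^ θ 0 j 0)⁻¹) (n + 1) le_rfl).mono
    ?_ (le_of_eq ?_) ?_
  · rintro u ⟨b, hb, k, hk, rfl⟩
    refine ⟨b, by simpa using hb, ?_⟩
    funext x
    obtain rfl : k = 0 := by simpa using hk
    simp only [yv, D, ex, pow_zero, Finset.sum_range_one, mul_zero, add_zero, one_mul]
    rw [← mul_assoc, mul_inv_cancel₀ (pow_ne_zero _ hZ0), one_mul]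
  · have h1 : ∀ l ∈ Finset.range (n + 1), ∑ b ∈ Finset.range (2 ^ (n - l)),
        ∑ k ∈ Finset.range (2 ^ l), (bad n θ l b k + 2) = 2 ^ (n + 1) +
        ∑ b ∈ Finset.range (2 ^ (n - l)), ∑ k ∈ Finset.range (2 ^ l), bad n θ l b k := by
      intro l hl
      have hl' := Finset.mem_range.mp hl
      simp only [Finset.sum_add_distrib, Finset.sum_const, Finset.card_range, smul_eq_mul]
      rw [add_comm, ← mul_assoc, ← pow_add, show n - l + l = n by omega, pow_succ]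
    rw [Finset.sum_congr rfl h1, Finset.sum_add_distrib, Finset.sum_const, Finset.card_range,
      smul_eq_mul]
  · rintro u ⟨k, hk, rfl⟩
    refine ⟨0, by simp, k, hk, ?_⟩
    funext x
    simp [yv]

end Vale.Agent.P344.H260
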