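import Vale.Agent.P344.H952.Defs

/-!
# Linear circuits: a calculus for counting gates, values up to sign
-/

namespace Vale.Agent.P344.H260

open Set

variable {X Y : Type}

theorem steps_subset {S V : Set (ℕ × (X → ℂ))} {s : ℕ} (h : Steps Set.univ S s V) : S ⊆ V := by
  induction h with
  | zero => exact Subset.rfl
  | add _ _ _ ih => exact ih.trans (subset_insert _ _)
  | sub _ _ _ ih => exact ih.trans (subset_insert _ _)
  | smul c _ _ _ ih => exact ih.trans (subset_insert _ _)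

theorem steps_trans {S V W : Set (ℕ × (X → ℂ))} {s t : ℕ} (h : Steps Set.univ S s V)
    (h' : Steps Set.univ V t W) : Steps Set.univ S (s + t) W := by
  induction h' with
  | zero => exact h
  | add _ h1 h2 ih => exact .add ih h1 h2
  | sub _ h1 h2 ih => exact .sub ih h1 h2
  | smul c _ h1 hc ih => exact .smul c ih h1 hc

/-- `u` or `-u` occurs among the computed values `V`. -/
def Has (V : Set (ℕ × (X → ℂ))) (u : X → ℂ) : Prop := ∃ d, (d, u) ∈ V ∨ (d, -u) ∈ V

theorem Has.mono {V W : Set (ℕ × (X → ℂ))} {u : X → ℂ} (h : Has V u) (hVW : V ⊆ W) : Has W u := by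
  obtain ⟨d, h | h⟩ := h
  · exact ⟨d, Or.inl (hVW h)⟩
  · exact ⟨d, Or.inr (hVW h)⟩

theorem Has.neg {V : Set (ℕ × (X → ℂ))} {u : X → ℂ} (h : Has V u) : Has V (-u) := by
  obtain ⟨d, h | h⟩ := h
  · exact ⟨d, Or.inr (by rwa [neg_neg])⟩
  · exact ⟨d, Or.inl h⟩

/-- However the values `S` are computed (up to sign), at most `s` further gates produce the
values `W` up to sign. -/
def Can (S : Set (X → ℂ)) (s : ℕ) (W : Set (X → ℂ)) : Prop :=
  ∀ V, Has V 0 → (∀ u ∈ S, Has V u) →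
    ∃ s' ≤ s, ∃ V', Steps Set.univ V s' V' ∧ ∀ u ∈ W, Has V' u

theorem Can.of_subset {S W : Set (X → ℂ)} (h : W ⊆ S) (s : ℕ) : Can S s W :=
  fun V _ hV => ⟨0, Nat.zero_le _, V, .zero, fun u hu => hV u (h hu)⟩

theorem Can.mono {S S' W W' : Set (X → ℂ)} {s s' : ℕ} (h : Can S s W) (hS : S ⊆ S')
    (hs : s ≤ s') (hW : W' ⊆ W) : Can S' s' W' := by
  intro V h0 hV
  obtain ⟨t, ht, V', hV', hW'⟩ := h V h0 fun u hu => hV u (hS hu)
  exact ⟨t, ht.trans hs, V', hV', fun u hu => hW' u (hW hu)⟩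

/-- Sequential composition. -/
theorem Can.trans {S W W' : Set (X → ℂ)} {s t : ℕ} (h : Can S s W) (h' : Can W t W') :
    Can S (s + t) W' := by
  intro V h0 hV
  obtain ⟨s1, hs1, V1, hV1, hW1⟩ := h V h0 hV
  obtain ⟨s2, hs2, V2, hV2, hW2⟩ := h' V1 (h0.mono (steps_subset hV1)) hW1
  exact ⟨s1 + s2, Nat.add_le_add hs1 hs2, V2, steps_trans hV1 hV2, hW2⟩

/-- Two tasks one after the other. -/
theorem Can.union {S W W' : Set (X → ℂ)} {s t : ℕ} (h : Can S s W) (h' : Can S t W') :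
    Can S (s + t) (W ∪ W') := by
  intro V h0 hV
  obtain ⟨s1, hs1, V1, hV1, hW1⟩ := h V h0 hV
  have hsub := steps_subset hV1
  obtain ⟨s2, hs2, V2, hV2, hW2⟩ := h' V1 (h0.mono hsub) fun u hu => (hV u hu).mono hsub
  refine ⟨s1 + s2, Nat.add_le_add hs1 hs2, V2, steps_trans hV1 hV2, ?_⟩
  rintro u (hu | hu)
  · exact (hW1 u hu).mono (steps_subset hV2)
  · exact hW2 u hu

/-- Consequences of availability (up to sign) are available. -/
theorem Can.post {S W W' : Set (X → ℂ)} {s : ℕ} (h : Can S s W)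
    (hW : ∀ V : Set (ℕ × (X → ℂ)), (∀ u ∈ W, Has V u) → ∀ u ∈ W', Has V u) : Can S s W' := by
  intro V h0 hV
  obtain ⟨t, ht, V', hV', hW'⟩ := h V h0 hV
  exact ⟨t, ht, V', hV', hW V' hW'⟩

/-- Finitely many tasks, one after the other. -/
theorem Can.range {S : Set (X → ℂ)} (n : ℕ) (f : ℕ → ℕ) (W : ℕ → Set (X → ℂ))
    (h : ∀ i < n, Can S (f i) (W i)) :
    Can S (∑ i ∈ Finset.range n, f i) {u | ∃ i < n, u ∈ W i} := by
  induction n with
  | zero =>
    refine Can.of_subset ?_ _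
    rintro u ⟨i, hi, _⟩
    exact absurd hi (Nat.not_lt_zero _)
  | succ n ih =>
    rw [Finset.sum_range_succ]
    refine ((ih fun i hi => h i (Nat.lt_succ_of_lt hi)).union (h n (Nat.lt_succ_self n))).mono
      Subset.rfl le_rfl ?_
    rintro u ⟨i, hi, hu⟩
    rcases Nat.lt_succ_iff_lt_or_eq.mp hi with hi | rfl
    · exact Or.inl ⟨i, hi, hu⟩
    · exact Or.inr hu

/-- One scalar multiplication. -/
theorem Can.smul {S : Set (X → ℂ)} {u : X → ℂ} (hu : u ∈ S) (c : ℂ) : Can S 1 {c • u} := by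
  intro V _ hV
  obtain ⟨d, h | h⟩ := hV u hu
  · refine ⟨1, le_rfl, _, .smul c .zero h (Set.mem_univ _), ?_⟩
    rintro v rfl
    exact ⟨d + 1, Or.inl (mem_insert _ _)⟩
  · refine ⟨1, le_rfl, _, .smul c .zero h (Set.mem_univ _), ?_⟩
    rintro v rfl
    refine ⟨d + 1, Or.inr ?_⟩
    have : -(c • u) = c • (-u) := by rw [smul_neg]
    rw [this]
    exact mem_insert _ _

/-- The cost of a scalar multiplication: multiplications by `1` and `-1` are free, since signs do
not matter. -/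
noncomputable def cst (c : ℂ) : ℕ := by
  classical exact if c = 1 ∨ c = -1 then 0 else 1

theorem Can.scale {S : Set (X → ℂ)} {u : X → ℂ} (hu : u ∈ S) (c : ℂ) :
    Can S (cst c) {c • u} := by
  classical
  unfold cst
  split_ifs with h
  · intro V _ hV
    refine ⟨0, le_rfl, V, .zero, ?_⟩
    rintro v rfl
    rcases h with rfl | rfl
    · rw [one_smul]
      exact hV u hu
    · rw [neg_smul, one_smul]
      exact (hV u hu).neg
  · exact Can.smul hu c

/-- A sum and a difference, with two gates. -/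
theorem Can.addsub (u v : X → ℂ) : Can {u, v} 2 {u + v, u - v} := by
  intro V _ hV
  obtain ⟨d, hu⟩ := hV u (by simp)
  obtain ⟨e, hv⟩ := hV v (by simp)
  have key : ∀ u' v' : X → ℂ, (d, u') ∈ V → (e, v') ∈ V →
      ∃ V', Steps Set.univ V 2 V' ∧ Has V' (u' + v') ∧ Has V' (u' - v') := by
    intro u' v' hu' hv'
    refine ⟨_, .sub (.add .zero hu' hv') (mem_insert_of_mem _ hu') (mem_insert_of_mem _ hv'),
      ⟨max d e + 1, Or.inl (mem_insert_of_mem _ (mem_insert _ _))⟩,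
      ⟨max d e + 1, Or.inl (mem_insert _ _)⟩⟩
  rcases hu with hu | hu <;> rcases hv with hv | hv
  · obtain ⟨V', h1, h2, h3⟩ := key _ _ hu hv
    refine ⟨2, le_rfl, V', h1, ?_⟩
    rintro w (rfl | rfl)
    · exact h2
    · exact h3
  · obtain ⟨V', h1, h2, h3⟩ := key _ _ hu hv
    refine ⟨2, le_rfl, V', h1, ?_⟩
    rintro w (rfl | rfl)
    · rwa [sub_neg_eq_add] at h3
    · rwa [← sub_eq_add_neg] at h2
  · obtain ⟨V', h1, h2, h3⟩ := key _ _ hu hv
    refine ⟨2, le_rfl, V', h1, ?_⟩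
    rintro w (rfl | rfl)
    · have := h3.neg
      rwa [neg_sub, sub_neg_eq_add, add_comm] at this
    · have := h2.neg
      rwa [neg_add, neg_neg, ← sub_eq_add_neg] at this
  · obtain ⟨V', h1, h2, h3⟩ := key _ _ hu hv
    refine ⟨2, le_rfl, V', h1, ?_⟩
    rintro w (rfl | rfl)
    · have := h2.neg
      rwa [neg_add, neg_neg, neg_neg] at this
    · have := h3.neg
      rwa [neg_sub, sub_eq_add_neg, neg_neg, add_comm, ← sub_eq_add_neg] at this

/-- A butterfly `a u + b v`, `a u - b v`. -/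
theorem Can.butterfly {S : Set (X → ℂ)} {u v : X → ℂ} (hu : u ∈ S) (hv : v ∈ S) (a b : ℂ) :
    Can S (cst a + cst b + 2) {a • u + b • v, a • u - b • v} := by
  refine ((Can.scale hu a).union (Can.scale hv b)).trans ((Can.addsub (a • u) (b • v)).mono ?_
    le_rfl Subset.rfl)
  rintro w (rfl | rfl)
  · exact Or.inl rfl
  · exact Or.inr rfl

theorem has_insert {V : Set (ℕ × (X → ℂ))} {d : ℕ} {u v : X → ℂ} (h : u = v) :
    Has (insert (d, u) V) v := by
  subst h
  exact ⟨d, Or.inl (mem_insert _ _)⟩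

theorem has_insert_neg {V : Set (ℕ × (X → ℂ))} {d : ℕ} {u v : X → ℂ} (h : u = -v) :
    Has (insert (d, u) V) v := by
  subst h
  exact ⟨d, Or.inr (mem_insert _ _)⟩

/-- One more addition, up to sign. -/
theorem has_add {V U : Set (ℕ × (X → ℂ))} {s : ℕ} {u v : X → ℂ} (hU : Steps Set.univ V s U)
    (hu : Has U u) (hv : Has U v) :
    ∃ U', Steps Set.univ V (s + 1) U' ∧ U ⊆ U' ∧ Has U' (u + v) := by
  obtain ⟨d', m1⟩ := hu
  obtain ⟨e', m2⟩ := hv
  rcases m1 with m1 | m1 <;> rcases m2 with m2 | m2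
  · exact ⟨_, .add hU m1 m2, subset_insert _ _, has_insert rfl⟩
  · exact ⟨_, .sub hU m1 m2, subset_insert _ _, has_insert (sub_neg_eq_add _ _)⟩
  · exact ⟨_, .sub hU m2 m1, subset_insert _ _,
      has_insert ((sub_neg_eq_add _ _).trans (add_comm _ _))⟩
  · exact ⟨_, .add hU m1 m2, subset_insert _ _, has_insert_neg (neg_add _ _).symm⟩

/-- A circuit can be run on the pullback of its inputs, up to sign. -/
theorem run {V₀ W : Set (ℕ × (Y → ℂ))} {s : ℕ} (h : Steps Set.univ V₀ s W) (φ : X → Y)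
    {V : Set (ℕ × (X → ℂ))} (hV : ∀ p ∈ V₀, Has V fun x => p.2 (φ x)) :
    ∃ U, Steps Set.univ V s U ∧ ∀ p ∈ W, Has U fun x => p.2 (φ x) := by
  induction h with
  | zero => exact ⟨V, .zero, hV⟩
  | @add s V1 d e u v _ h1 h2 ih =>
    obtain ⟨U, hU, hU'⟩ := ih
    obtain ⟨U', h1', h2', h3'⟩ := has_add hU (hU' _ h1) (hU' _ h2)
    refine ⟨U', h1', ?_⟩
    rintro p (rfl | hp)
    · exact h3'
    · exact (hU' p hp).mono h2'
  | @sub s V1 d e u v _ h1 h2 ih =>
    obtain ⟨U, hU, hU'⟩ := ih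
    obtain ⟨U', h1', h2', h3'⟩ := has_add hU (hU' _ h1) (hU' _ h2).neg
    refine ⟨U', h1', ?_⟩
    rintro p (rfl | hp)
    · rw [← sub_eq_add_neg] at h3'
      exact h3'
    · exact (hU' p hp).mono h2'
  | @smul s V1 d u c _ h1 hc ih =>
    obtain ⟨U, hU, hU'⟩ := ih
    obtain ⟨d', m1⟩ := hU' _ h1
    have key : ∃ U', Steps Set.univ V (s + 1) U' ∧ U ⊆ U' ∧
        Has U' (c • fun x => u (φ x)) := by
      rcases m1 with m1 | m1
      · exact ⟨_, .smul c hU m1 hc, subset_insert _ _, has_insert rfl⟩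
      · exact ⟨_, .smul c hU m1 hc, subset_insert _ _, has_insert_neg (smul_neg _ _)⟩
    obtain ⟨U', h1', h2', h3'⟩ := key
    refine ⟨U', h1', ?_⟩
    rintro p (rfl | hp)
    · exact h3'
    · exact (hU' p hp).mono h2'

/-- Pull back along a map of input spaces. -/
theorem Can.pull {S W : Set (Y → ℂ)} {s : ℕ} (h : Can S s W) (φ : X → Y) {S' W' : Set (X → ℂ)}
    (hS : ∀ u ∈ S, (fun x => u (φ x)) ∈ S') (hW : ∀ w ∈ W', ∃ u ∈ W, w = fun x => u (φ x)) :
    Can S' s W' := by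
  intro V h0 hV
  obtain ⟨s', hs', V', hV', hW'⟩ := h {p | Has V fun x => p.2 (φ x)} ⟨0, Or.inl h0⟩
    fun u hu => ⟨0, Or.inl (hV _ (hS u hu))⟩
  obtain ⟨U, hU, hU'⟩ := run hV' φ (V := V) fun p hp => hp
  refine ⟨s', hs', U, hU, ?_⟩
  intro w hw
  obtain ⟨u, hu, rfl⟩ := hW w hw
  obtain ⟨d, h | h⟩ := hW' u hu
  · exact hU' _ h
  · have := (hU' _ h).neg
    have h2 : (-fun x => (-u) (φ x)) = fun x => u (φ x) := by
      funext x
      simp
    rwa [h2] at this

end Vale.Agent.P344.H260
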