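import Vale.Agent.P344.H260.Tri

/-!
# Chains: `F_N` for `N = 2 ^ a * 3 ^ b` from transforms of leaf classes
-/

namespace Vale.Agent.P344.H260

open Set

/-- `∑ ζ_N^(ik) x_i` over the indices `i = r + m j`, `j < n`, where `N = m n`. -/
noncomputable def cl (m n r k : ℕ) (x : ℕ → ℂ) : ℂ :=
  zt (m * n) ^ (r * k) * D n k fun j => x (r + m * j)

theorem D_mod (n k : ℕ) (x : ℕ → ℂ) : D n k x = D n (k % n) x := by
  conv_lhs => rw [← Nat.mod_add_div k n]
  exact D_add_mul n (k % n) (k / n) x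

theorem cl_shift {m n : ℕ} (hm : m ≠ 0) (hn : n ≠ 0) (r k : ℕ) :
    cl m n r (k + n) = (zt m ^ r) • cl m n r k := by
  funext x
  have h1 : D n (k + n) (fun j => x (r + m * j)) = D n k fun j => x (r + m * j) := by
    have := D_add_mul n k 1 fun j => x (r + m * j)
    rwa [mul_one] at this
  have h2 : zt (m * n) ^ (r * (k + n)) = zt m ^ r * zt (m * n) ^ (r * k) := by
    rw [Nat.mul_add, pow_add, mul_comm r n, pow_mul _ n r, zt_pow_right hn hm, mul_comm]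
  simp only [cl, Pi.smul_apply, smul_eq_mul]
  rw [h1, h2]
  ring

theorem cl_split {m n p : ℕ} (hm : m ≠ 0) (hn : n ≠ 0) (hp : p ≠ 0) (r k : ℕ) :
    cl m (p * n) r k = ∑ i ∈ Finset.range p, cl (m * p) n (r + m * i) k := by
  funext x
  rw [Finset.sum_apply]
  simp only [cl]
  have h1 := D_split hn hp k 0 fun j => x (r + m * j)
  rw [Nat.mul_zero, Nat.add_zero] at h1
  rw [h1, Finset.mul_sum]
  refine Finset.sum_congr rfl fun i _ => ?_
  have h2 : zt (p * n) ^ (i * k) = zt (m * (p * n)) ^ (m * (i * k)) := by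
    rw [pow_mul (zt (m * (p * n))) m, zt_pow_left (Nat.mul_ne_zero hp hn) hm]
  have h3 : (fun j1 => x (r + m * (i + p * j1))) = fun j => x (r + m * i + m * p * j) := by
    funext j
    congr 1
    ring
  rw [Nat.mul_zero, pow_zero, one_mul, h2, h3, ← mul_assoc, ← pow_add, mul_assoc m p n]
  congr 2
  ring

theorem cl_split_two {m n : ℕ} (hm : m ≠ 0) (hn : n ≠ 0) (r k : ℕ) :
    cl m (2 * n) r k = cl (m * 2) n r k + cl (m * 2) n (r + m) k := by
  rw [cl_split hm hn two_ne_zero, Finset.sum_range_succ, Finset.sum_range_one, Nat.mul_zero,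
    Nat.add_zero, Nat.mul_one]

theorem cl_split_three {m n : ℕ} (hm : m ≠ 0) (hn : n ≠ 0) (r k : ℕ) :
    cl m (3 * n) r k = cl (m * 3) n r k + cl (m * 3) n (r + m) k + cl (m * 3) n (r + m * 2) k := by
  rw [cl_split hm hn three_ne_zero, Finset.sum_range_succ, Finset.sum_range_succ,
    Finset.sum_range_one, Nat.mul_zero, Nat.add_zero, Nat.mul_one]

/-- The transform of a leaf class. -/
theorem leaf {n s : ℕ} (h : Sc n s) {m r N : ℕ} (hN : m * n = N) (hr : r < m) :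
    ∃ β : ℕ → ℂ, (∀ k, β k ≠ 0) ∧
      Can (coords N) s {u | ∃ k < n, u = fun x => β k * D n k fun j => x (r + m * j)} := by
  obtain ⟨β, hβ, hc⟩ := h
  refine ⟨β, hβ, hc.pull (fun (x : ℕ → ℂ) j => x (r + m * j)) ?_ ?_⟩
  · rintro u ⟨j, hj, rfl⟩
    refine ⟨r + m * j, ?_, rfl⟩
    calc r + m * j < m + m * j := by omega
      _ = m * (j + 1) := by ring
      _ ≤ m * n := Nat.mul_le_mul_left _ hj
      _ = N := hN
  · rintro w ⟨k, hk, rfl⟩
    exact ⟨_, ⟨k, hk, rfl⟩, rfl⟩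

theorem zt_six : zt 6 = -om ^ 2 ∧ zt 6 ^ 3 = -1 ∧ zt 6 ^ 5 = -om := by
  have h1 : zt 6 ^ 2 = om := by
    have := zt_pow_left (p := 3) (q := 2) (by norm_num) (by norm_num)
    norm_num at this
    exact this
  have h2 : zt 6 ^ 3 = -1 := by
    have := zt_pow_left (p := 2) (q := 3) (by norm_num) (by norm_num)
    norm_num at this
    rw [this]
    exact (zt_prim two_ne_zero).eq_neg_one_of_two_right
  have h3 := om_cube
  refine ⟨?_, h2, ?_⟩
  · have h4 : zt 6 * om = -1 := by rw [← h1, ← h2]; ring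
    linear_combination om ^ 2 * h4 - zt 6 * h3
  · have h5 : zt 6 ^ 5 = zt 6 ^ 3 * zt 6 ^ 2 := by ring
    rw [h5, h1, h2]
    ring

/-- One level of a chain of radix 3, with the transforms of the two leaf classes. -/
theorem chain_step {S : Set ((ℕ → ℂ) → ℂ)} {m Q e s N : ℕ} (hQ : Q % 3 ≠ 0)
    (hN : m * 3 * (Q * 3 ^ e) = N) (hS : coords N ⊆ S) (h : Sc (Q * 3 ^ e) s)
    {ε : ℂ} (hε : ε = 1 ∨ ε = -1) {r rc r₁ r₂ : ℕ} (h₁m : r₁ < m * 3) (h₂m : r₂ < m * 3)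
    (hsplit : ∀ k, cl m (3 * (Q * 3 ^ e)) r k = cl (m * 3) (Q * 3 ^ e) rc k +
      cl (m * 3) (Q * 3 ^ e) r₁ k + cl (m * 3) (Q * 3 ^ e) r₂ k)
    (hc : zt (m * 3) ^ rc = ε) (h₁ : zt (m * 3) ^ r₁ = ε * om) (h₂ : zt (m * 3) ^ r₂ = ε * om ^ 2)
    (hCS : ∀ k, G e k • cl (m * 3) (Q * 3 ^ e) rc k ∈ S) :
    Can S (2 * s + 8 * (Q * 3 ^ e)) {u | ∃ k, u = G (e + 1) k • cl m (3 * (Q * 3 ^ e)) r k} := by
  set n := Q * 3 ^ e with hn
  have hm3 : m * 3 ≠ 0 := by omega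
  have hn0 : n ≠ 0 := Nat.mul_ne_zero (by rintro rfl; simp at hQ) (by positivity)
  obtain ⟨β₁, hβ₁, hl₁⟩ := leaf h hN h₁m
  obtain ⟨β₂, hβ₂, hl₂⟩ := leaf h hN h₂m
  have st1 : Can S (2 * s) (S ∪ ({u | ∃ k < n, u = fun x => β₁ k * D n k fun j => x (r₁ + m * 3 * j)}
      ∪ {u | ∃ k < n, u = fun x => β₂ k * D n k fun j => x (r₂ + m * 3 * j)})) := by
    have a1 := (Can.of_subset (Subset.refl S) 0).union
      ((hl₁.mono hS le_rfl Subset.rfl).union (hl₂.mono hS le_rfl Subset.rfl))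
    exact a1.mono Subset.rfl (by omega) Subset.rfl
  have hY : ∀ (r' : ℕ) (β : ℕ → ℂ), (∀ k, β k ≠ 0) → ∀ k, ∃ c : ℂ, cl (m * 3) n r' k =
      c • fun x : ℕ → ℂ => β (k % n) * D n (k % n) fun j => x (r' + m * 3 * j) := by
    intro r' β hβ k
    refine ⟨zt (m * 3 * n) ^ (r' * k) / β (k % n), ?_⟩
    funext x
    simp only [cl, Pi.smul_apply, smul_eq_mul]
    rw [D_mod n k, div_mul_eq_mul_div, mul_div_assoc, mul_div_cancel_left₀ _ (hβ _)]
  have st2 := tri_level (S := S ∪ ({u | ∃ k < n, u = fun x => β₁ k * D n k fun j => x (r₁ + m * 3 * j)}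
      ∪ {u | ∃ k < n, u = fun x => β₂ k * D n k fun j => x (r₂ + m * 3 * j)})) hQ hε
    (cl (m * 3) n rc) (cl (m * 3) n r₁) (cl (m * 3) n r₂)
    (fun k x => β₁ k * D n k fun j => x (r₁ + m * 3 * j))
    (fun k x => β₂ k * D n k fun j => x (r₂ + m * 3 * j))
    (fun k => by rw [cl_shift hm3 hn0, hc]) (fun k => by rw [cl_shift hm3 hn0, h₁])
    (fun k => by rw [cl_shift hm3 hn0, h₂]) (fun k => Or.inl (hCS k))
    (hY r₁ β₁ hβ₁) (hY r₂ β₂ hβ₂)
    (fun k hk => Or.inr (Or.inl ⟨k, hk, rfl⟩)) (fun k hk => Or.inr (Or.inr ⟨k, hk, rfl⟩))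
  refine (st1.trans st2).mono Subset.rfl le_rfl ?_
  rintro u ⟨k, rfl⟩
  exact ⟨k, by rw [hsplit]⟩

/-- A chain of radix 3.  `r = 0`, or `M = 2 r`. -/
theorem chain3 {S : Set ((ℕ → ℂ) → ℂ)} {M Q b r N : ℕ} (hM : M ≠ 0) (hQ : Q % 3 ≠ 0)
    (hr : r = 0 ∨ M = 2 * r) (hN : M * (Q * 3 ^ b) = N) (hS : coords N ⊆ S) (s : ℕ → ℕ)
    (hs : ∀ e < b, Sc (Q * 3 ^ e) (s e))
    (h0 : ∀ k, cl (M * 3 ^ b) Q (r * 3 ^ b) k ∈ S) (e : ℕ) (he : e ≤ b) :
    Can S (∑ i ∈ Finset.range e, (2 * s i + 8 * (Q * 3 ^ i)))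
      (S ∪ {u | ∃ k, u = G e k • cl (M * 3 ^ (b - e)) (Q * 3 ^ e) (r * 3 ^ (b - e)) k}) := by
  induction e with
  | zero =>
    refine Can.of_subset ?_ _
    rintro u (hu | ⟨k, rfl⟩)
    · exact hu
    · have := h0 k
      simpa [G] using this
  | succ e ih =>
    have ih := ih (by omega)
    rw [Finset.sum_range_succ]
    refine ih.trans ?_
    set T := S ∪ {u | ∃ k, u = G e k • cl (M * 3 ^ (b - e)) (Q * 3 ^ e) (r * 3 ^ (b - e)) k} with hT
    set c := b - (e + 1) with hc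
    have hbe : b - e = c + 1 := by omega
    set m := M * 3 ^ c with hm
    have hm0 : m ≠ 0 := Nat.mul_ne_zero hM (by positivity)
    have hm3 : M * 3 ^ (b - e) = m * 3 := by rw [hbe, pow_succ, hm, mul_assoc]
    have hN' : m * 3 * (Q * 3 ^ e) = N := by
      rw [← hN, ← hm3]
      have : 3 ^ (b - e) * 3 ^ e = 3 ^ b := by rw [← pow_add]; congr 1; omega
      calc M * 3 ^ (b - e) * (Q * 3 ^ e) = M * (Q * (3 ^ (b - e) * 3 ^ e)) := by ring
        _ = M * (Q * 3 ^ b) := by rw [this]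
    have hr3 : r * 3 ^ (b - e) = r * 3 ^ c * 3 := by rw [hbe, pow_succ, mul_assoc]
    have hCS : ∀ k, G e k • cl (m * 3) (Q * 3 ^ e) (r * 3 ^ c * 3) k ∈ T := by
      intro k
      refine Or.inr ⟨k, ?_⟩
      rw [hm3, hr3]
    have hn0 : Q * 3 ^ e ≠ 0 := Nat.mul_ne_zero (by rintro rfl; simp at hQ) (by positivity)
    have hST : coords N ⊆ T := hS.trans subset_union_left
    have step : Can T (2 * s e + 8 * (Q * 3 ^ e))
        {u | ∃ k, u = G (e + 1) k • cl m (3 * (Q * 3 ^ e)) (r * 3 ^ c) k} := by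
      rcases hr with hr0 | hr2
      · -- `r = 0`
        have z1 : zt (m * 3) ^ m = om := zt_pow_left three_ne_zero hm0
        refine chain_step (r := r * 3 ^ c) (rc := r * 3 ^ c * 3) (r₁ := m) (r₂ := m * 2) hQ hN'
          hST (hs e (by omega)) (Or.inl rfl) (by omega) (by omega) ?_ ?_ ?_ ?_ hCS
        · intro k
          rw [hr0, cl_split_three hm0 hn0]
          simp
        · rw [hr0]; simp
        · rw [z1, one_mul]
        · rw [pow_mul, z1, one_mul]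
      · -- `M = 2 r`
        set ρ := r * 3 ^ c with hρ
        have hmρ : m = 2 * ρ := by rw [hm, hρ, hr2]; ring
        have hρ0 : ρ ≠ 0 := by rintro h; rw [h] at hmρ; exact hm0 (by omega)
        obtain ⟨z1, z3, z5⟩ := zt_six
        have z0 : zt (m * 3) ^ ρ = zt 6 := by
          have : m * 3 = ρ * 6 := by rw [hmρ]; ring
          rw [this, zt_pow_left (by norm_num) hρ0]
        refine chain_step (r := ρ) (rc := ρ * 3) (r₁ := ρ * 5) (r₂ := ρ) hQ hN'
          hST (hs e (by omega)) (Or.inr rfl) (by omega) (by omega) ?_ ?_ ?_ ?_ hCS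
        · intro k
          rw [cl_split_three hm0 hn0]
          have e1 : ρ + m = ρ * 3 := by omega
          have e2 : ρ + m * 2 = ρ * 5 := by omega
          rw [e1, e2]
          abel
        · rw [pow_mul, z0, z3]
        · rw [pow_mul, z0, z5]; ring
        · rw [z0, z1]; ring
    have keep := (Can.of_subset (subset_union_left : S ⊆ T) 0).union step
    refine keep.mono Subset.rfl (by omega) ?_
    rintro u (hu | ⟨k, rfl⟩)
    · exact Or.inl hu
    · refine Or.inr ⟨k, ?_⟩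
      have : Q * 3 ^ (e + 1) = 3 * (Q * 3 ^ e) := by rw [pow_succ]; ring
      rw [this]

/-- The bottom of the chain of an odd class. -/
theorem odd_base {S : Set ((ℕ → ℂ) → ℂ)} {ρ Q N s : ℕ} (hρ : ρ ≠ 0) (hQ : Q ≠ 0)
    (hN : 2 * ρ * Q = N) (hS : coords N ⊆ S) (h : Sc Q s) :
    Can S (s + Q) (S ∪ {u | ∃ k, u = cl (2 * ρ) Q ρ k}) := by
  have hm : 2 * ρ ≠ 0 := by omega
  obtain ⟨β, hβ, hl⟩ := leaf h hN (r := ρ) (by omega)
  have a1 := hl.mono hS le_rfl Subset.rfl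
  have a2 := Can.range (S := {u | ∃ k < Q, u = fun x => β k * D Q k fun j => x (ρ + 2 * ρ * j)}) Q
    (fun _ => 1) (fun k => {cl (2 * ρ) Q ρ k}) (by
      intro k hk
      have hmem : (fun x : ℕ → ℂ => β k * D Q k fun j => x (ρ + 2 * ρ * j)) ∈
          {u | ∃ k < Q, u = fun x => β k * D Q k fun j => x (ρ + 2 * ρ * j)} := ⟨k, hk, rfl⟩
      have := Can.smul hmem (zt (2 * ρ * Q) ^ (ρ * k) / β k)
      have e : (zt (2 * ρ * Q) ^ (ρ * k) / β k) •
          (fun x : ℕ → ℂ => β k * D Q k fun j => x (ρ + 2 * ρ * j)) = cl (2 * ρ) Q ρ k := by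
        funext x
        simp only [cl, Pi.smul_apply, smul_eq_mul]
        rw [div_mul_eq_mul_div, mul_div_assoc, mul_div_cancel_left₀ _ (hβ _)]
      rwa [e] at this)
  have a3 := (Can.of_subset (Subset.refl S) 0).union (a1.trans a2)
  refine (a3.mono Subset.rfl (by simp) Subset.rfl).post ?_
  rintro V hV u (hu | ⟨k, rfl⟩)
  · exact hV u (Or.inl hu)
  · have hz : zt (2 * ρ) ^ ρ = -1 := by
      rw [mul_comm, zt_pow_left two_ne_zero hρ]
      exact (zt_prim two_ne_zero).eq_neg_one_of_two_right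
    have hper : ∀ k, cl (2 * ρ) Q ρ (k + Q) = cl (2 * ρ) Q ρ k ∨
        cl (2 * ρ) Q ρ (k + Q) = -cl (2 * ρ) Q ρ k := by
      intro k
      right
      rw [cl_shift hm hQ, hz, neg_smul, one_smul]
    rw [← Nat.mod_add_div k Q]
    refine (Has.shift (V := V) hper (k % Q) (k / Q)).mpr ?_
    exact hV _ (Or.inr ⟨k % Q, Nat.mod_lt _ (Nat.pos_of_ne_zero hQ), rfl⟩)

/-- The cost of an odd class. -/
def oddCost (s : ℕ → ℕ → ℕ) (b c : ℕ) : ℕ :=
  s c 0 + 2 ^ c + ∑ i ∈ Finset.range b, (2 * s c i + 8 * (2 ^ c * 3 ^ i))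

theorem two_pow_mod_three (c : ℕ) : 2 ^ c % 3 ≠ 0 := by
  induction c with
  | zero => norm_num
  | succ c ih => rw [pow_succ]; omega

/-- The values of an odd class. -/
theorem odd_class {S : Set ((ℕ → ℂ) → ℂ)} {ρ b c N : ℕ} (hρ : ρ ≠ 0)
    (hN : 2 * ρ * (2 ^ c * 3 ^ b) = N) (hS : coords N ⊆ S) (s : ℕ → ℕ → ℕ)
    (hs : ∀ e < b, Sc (2 ^ c * 3 ^ e) (s c e)) (hs0 : Sc (2 ^ c) (s c 0)) :
    Can S (oddCost s b c) (S ∪ {u | ∃ k, u = G b k • cl (2 * ρ) (2 ^ c * 3 ^ b) ρ k}) := by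
  have h3 : ρ * 3 ^ b ≠ 0 := Nat.mul_ne_zero hρ (by positivity)
  have a1 := odd_base (S := S) (ρ := ρ * 3 ^ b) (Q := 2 ^ c) (N := N) h3 (by positivity)
    (by rw [← hN]; ring) hS hs0
  set T := S ∪ {u | ∃ k, u = cl (2 * (ρ * 3 ^ b)) (2 ^ c) (ρ * 3 ^ b) k} with hT
  have a2 := chain3 (S := T) (M := 2 * ρ) (Q := 2 ^ c) (b := b) (r := ρ) (N := N) (by omega)
    (two_pow_mod_three c) (Or.inr rfl) hN (hS.trans subset_union_left) (s c) hs (by
      intro k
      refine Or.inr ⟨k, ?_⟩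
      rw [mul_assoc]) b le_rfl
  rw [Nat.sub_self, pow_zero, mul_one, mul_one] at a2
  refine (a1.trans a2).mono Subset.rfl le_rfl ?_
  rintro u (hu | hu)
  · exact Or.inl (Or.inl hu)
  · exact Or.inr hu

/-- All butterflies of one level of the chain of radix 2. -/
theorem two_level {S : Set ((ℕ → ℂ) → ℂ)} {m n b Q : ℕ} (hm : m ≠ 0) (hn : n ≠ 0)
    (hnQ : n = Q * 3 ^ b)
    (hE : ∀ k, G b k • cl (2 * m) n 0 k ∈ S) (hO : ∀ k, G b k • cl (2 * m) n m k ∈ S) :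
    Can S (2 * n) {u | ∃ k, u = G b k • cl m (2 * n) 0 k} := by
  have hm2 : m * 2 ≠ 0 := by omega
  have hz : zt (m * 2) ^ m = -1 := by
    rw [zt_pow_left two_ne_zero hm]
    exact (zt_prim two_ne_zero).eq_neg_one_of_two_right
  have hsum : ∀ k, cl m (2 * n) 0 k = cl (2 * m) n 0 k + cl (2 * m) n m k := by
    intro k
    rw [cl_split_two hm hn, Nat.zero_add, mul_comm m 2]
  have hdiff : ∀ k, cl m (2 * n) 0 (k + n) = cl (2 * m) n 0 k - cl (2 * m) n m k := by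
    intro k
    rw [hsum, mul_comm 2 m, cl_shift hm2 hn, cl_shift hm2 hn, pow_zero, one_smul, hz, neg_smul,
      one_smul, sub_eq_add_neg]
  have hG : ∀ k, G b (k + n) = G b k := by
    intro k
    rw [hnQ, mul_comm, G_add]
  have a1 := Can.range (S := S) n (fun _ => 2)
    (fun k => {G b k • cl (2 * m) n 0 k + G b k • cl (2 * m) n m k,
      G b k • cl (2 * m) n 0 k - G b k • cl (2 * m) n m k}) (by
      intro k _
      refine (Can.addsub _ _).mono ?_ le_rfl Subset.rfl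
      rintro u (rfl | rfl)
      · exact hE k
      · exact hO k)
  have hc : ∑ i ∈ Finset.range n, 2 = 2 * n := by simp [mul_comm]
  rw [hc] at a1
  refine a1.post ?_
  rintro V hV u ⟨k, rfl⟩
  have hper : ∀ k, G b (k + 2 * n) • cl m (2 * n) 0 (k + 2 * n) = G b k • cl m (2 * n) 0 k ∨
      G b (k + 2 * n) • cl m (2 * n) 0 (k + 2 * n) = -(G b k • cl m (2 * n) 0 k) := by
    intro k
    left
    rw [cl_shift hm (by omega), pow_zero, one_smul, show k + 2 * n = k + n + n by ring, hG, hG]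
  rw [← Nat.mod_add_div k (2 * n)]
  refine (Has.shift (V := V) (u := fun k => G b k • cl m (2 * n) 0 k) hper (k % (2 * n))
    (k / (2 * n))).mpr ?_
  set j := k % (2 * n) with hj
  have hj2 : j < 2 * n := Nat.mod_lt _ (by omega)
  by_cases hjn : j < n
  · have := hV _ ⟨j, hjn, Or.inl rfl⟩
    rwa [← smul_add, ← hsum] at this
  · have hjn' : j - n < n := by omega
    have h1 := hV _ ⟨j - n, hjn', Or.inr rfl⟩
    have h2 : j - n + n = j := by omega
    rw [← smul_sub, ← hdiff, ← hG (j - n), h2] at h1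
    exact h1

/-- The number of gates of the decomposition. -/
def stepCost (s : ℕ → ℕ → ℕ) (a b : ℕ) : ℕ :=
  ∑ i ∈ Finset.range b, (2 * s 0 i + 8 * 3 ^ i) +
    ∑ c ∈ Finset.range a, (oddCost s b c + 2 * (2 ^ c * 3 ^ b))

/-- The chain of radix 2. -/
theorem chain2 {a b : ℕ} (s : ℕ → ℕ → ℕ) (hs : ∀ c e, c ≤ a → e < b → Sc (2 ^ c * 3 ^ e) (s c e))
    (hs0 : ∀ c < a, Sc (2 ^ c) (s c 0)) (c : ℕ) (hc : c ≤ a) :
    Can (coords (2 ^ a * 3 ^ b)) (∑ i ∈ Finset.range b, (2 * s 0 i + 8 * 3 ^ i) +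
      ∑ i ∈ Finset.range c, (oddCost s b i + 2 * (2 ^ i * 3 ^ b)))
      (coords (2 ^ a * 3 ^ b) ∪ {u | ∃ k, u = G b k • cl (2 ^ (a - c)) (2 ^ c * 3 ^ b) 0 k}) := by
  set N := 2 ^ a * 3 ^ b with hN
  have hNpos : 0 < N := by positivity
  induction c with
  | zero =>
    have a2 := chain3 (S := coords N) (M := 2 ^ a) (Q := 1) (b := b) (r := 0) (N := N)
      (by positivity) (by norm_num) (Or.inl rfl) (by rw [one_mul]) Subset.rfl (s 0)
      (fun e he => by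
        have := hs 0 e (Nat.zero_le _) he
        rwa [pow_zero] at this) (by
        intro k
        refine ⟨0, hNpos, ?_⟩
        funext x
        simp [cl, D]) b le_rfl
    simp only [Nat.sub_self, pow_zero, mul_one, one_mul] at a2
    simpa using a2
  | succ c ih =>
    have ih := ih (by omega)
    rw [Finset.sum_range_succ, ← add_assoc]
    refine ih.trans ?_
    set T := coords N ∪ {u | ∃ k, u = G b k • cl (2 ^ (a - c)) (2 ^ c * 3 ^ b) 0 k} with hT
    set m := 2 ^ (a - (c + 1)) with hm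
    have hm0 : m ≠ 0 := by positivity
    have h2m : 2 ^ (a - c) = 2 * m := by
      rw [hm, ← pow_succ']
      congr 1
      omega
    have hNm : 2 * m * (2 ^ c * 3 ^ b) = N := by
      rw [← h2m, hN, ← mul_assoc, ← pow_add]
      congr 2
      omega
    have b1 := odd_class (S := T) (ρ := m) (b := b) (c := c) (N := N) hm0 hNm subset_union_left s
      (fun e he => hs c e (by omega) he) (hs0 c (by omega))
    have b2 := two_level (S := T ∪ {u | ∃ k, u = G b k • cl (2 * m) (2 ^ c * 3 ^ b) m k})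
      (m := m) (n := 2 ^ c * 3 ^ b) (b := b) (Q := 2 ^ c) hm0 (by positivity) rfl
      (fun k => Or.inl (Or.inr ⟨k, by rw [h2m]⟩)) (fun k => Or.inr ⟨k, rfl⟩)
    have b3 := (Can.of_subset (subset_union_left.trans subset_union_left :
      coords N ⊆ T ∪ {u | ∃ k, u = G b k • cl (2 * m) (2 ^ c * 3 ^ b) m k}) 0).union b2
    refine (b1.trans b3).mono Subset.rfl (by omega) ?_
    rintro u (hu | ⟨k, rfl⟩)
    · exact Or.inl hu
    · refine Or.inr ⟨k, ?_⟩
      rw [pow_succ, mul_comm (2 ^ c) 2, mul_assoc]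

/-- The decomposition of `F_N`, `N = 2 ^ a * 3 ^ b`. -/
theorem Sc.chains {a b : ℕ} (s : ℕ → ℕ → ℕ)
    (hs : ∀ c e, c ≤ a → e < b → Sc (2 ^ c * 3 ^ e) (s c e))
    (hs0 : ∀ c < a, Sc (2 ^ c) (s c 0)) : Sc (2 ^ a * 3 ^ b) (stepCost s a b) := by
  refine ⟨G b, G_ne_zero b, ?_⟩
  refine (chain2 s hs hs0 a le_rfl).mono Subset.rfl le_rfl ?_
  rintro u ⟨k, _, rfl⟩
  refine Or.inr ⟨k, ?_⟩
  funext x
  simp [cl]

end Vale.Agent.P344.H260
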