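import Vale.Agent.P344.H260.Data
import Vale.Agent.P344.H952.Main

/-!
# Consequences for all lengths
-/

namespace Vale.Agent.P344.H260

open Filter

/-- A circuit for `diag(b) F_q diag(a)` bounds the lower limit of `L(n) / (n log n)`. -/
theorem gam_le_of_scaled {q K : ℕ} (hq : 2 ≤ q) (h : ScaledDFT q K) :
    gam ≤ (K + q - 1) / (q * Real.logb 2 q) := by
  have hq0 : (0 : ℝ) < q := by exact_mod_cast (by omega : 0 < q)
  have hl : 1 ≤ Real.logb 2 (q : ℝ) := logb_pos_of_two_le hq
  set ℓ := Real.logb 2 (q : ℝ) with hℓ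
  have key : ∀ j : ℕ, gam * (j * (q * ℓ)) ≤ j * (K + q - 1) + 2 * q := by
    intro j
    rcases Nat.eq_zero_or_pos j with rfl | hj
    · simp only [Nat.cast_zero, zero_mul, mul_zero, zero_add]
      positivity
    have hn2 : 2 ≤ q ^ j := le_trans hq (Nat.le_self_pow hj.ne' q)
    have h1 := lower_one hn2
    have h2 : (L (q ^ j) : ℝ) ≤ j * ((q : ℝ) ^ (j - 1) * (K + q - 1)) + (q : ℝ) ^ j := by
      have h3 := amplify (by omega) h j
      have h4 : ((K + q - 1 : ℕ) : ℝ) = K + q - 1 := by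
        rw [Nat.cast_sub (by omega)]
        push_cast
        ring
      calc (L (q ^ j) : ℝ) ≤ ((j * (q ^ (j - 1) * (K + q - 1)) + q ^ j : ℕ) : ℝ) := by
            exact_mod_cast h3
        _ = j * ((q : ℝ) ^ (j - 1) * (K + q - 1)) + (q : ℝ) ^ j := by
            push_cast [h4]
            ring
    have h5 : Real.logb 2 ((q ^ j : ℕ) : ℝ) = j * ℓ := by
      push_cast
      rw [Real.logb_pow]
    rw [h5] at h1
    have h6 : ((q ^ j : ℕ) : ℝ) = q * (q : ℝ) ^ (j - 1) := by
      push_cast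
      rw [← pow_succ']
      congr 1
      omega
    have h7 : (q : ℝ) ^ j = q * (q : ℝ) ^ (j - 1) := by
      rw [← h6]
      push_cast
      rfl
    rw [h6] at h1
    rw [h7] at h2
    have h8 : 0 < (q : ℝ) ^ (j - 1) := by positivity
    have h9 : (q : ℝ) ^ (j - 1) * (gam * (j * (q * ℓ))) ≤
        (q : ℝ) ^ (j - 1) * (j * (K + q - 1) + 2 * q) := by linarith
    exact le_of_mul_le_mul_left h9 h8
  rw [le_div_iff₀ (by positivity)]
  by_contra hcon
  push Not at hcon
  set ε := gam * (q * ℓ) - (K + q - 1) with hε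
  have hε0 : 0 < ε := by linarith
  obtain ⟨j, hj⟩ := exists_nat_gt (2 * (q : ℝ) / ε)
  have h1 := key j
  have h2 : 2 * (q : ℝ) < j * ε := by
    rwa [div_lt_iff₀ hε0] at hj
  have h3 : gam * (j * (q * ℓ)) - j * (K + q - 1) = j * ε := by rw [hε]; ring
  linarith

/-- The bound for all lengths. -/
theorem all_of_scaled {q K : ℕ} (hq : 2 ≤ q) (h : ScaledDFT q K) {δ : ℝ} (hδ : 0 < δ) :
    ∀ᶠ n : ℕ in atTop, (L n : ℝ) ≤
      (4 * ((K + q - 1) / (q * Real.logb 2 q)) + δ) * (n * Real.logb 2 n) := by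
  obtain ⟨_, _, _, _, hup⟩ := upper hδ
  filter_upwards [hup, eventually_ge_atTop 2] with n hn hn2
  obtain ⟨s, hs, hb⟩ := hn
  have h2 := logb_pos_of_two_le hn2
  have h3 : (L n : ℝ) ≤ s := by exact_mod_cast L_le hs
  have h4 := gam_le_of_scaled hq h
  have h5 : (0 : ℝ) ≤ n * Real.logb 2 n := by positivity
  refine h3.trans (hb.trans ?_)
  refine mul_le_mul_of_nonneg_right ?_ h5
  linarith

/-- `F_1024`, up to diagonal matrices: `10240` additions and `3578` scalar multiplications. -/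
theorem ker_1024 : Ker (2 ^ 10) (10 * 2 ^ 10 + 3578) := by
  have h := ker_table 9 table
  rwa [count_table] at h

theorem scaled_1024 : ScaledDFT 1024 13818 := ker_1024.scaledDFT

end Vale.Agent.P344.H260
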