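import Vale.Agent.P344.H260.Calc

/-!
# Cooley–Tukey recursion with scaled kernels
-/

namespace Vale.Agent.P344.H260

open Set

/-- `e^{2πi/n}`. -/
noncomputable def zt (n : ℕ) : ℂ := Complex.exp (2 * Real.pi * Complex.I / n)

theorem zt_prim {n : ℕ} (hn : n ≠ 0) : IsPrimitiveRoot (zt n) n :=
  Complex.isPrimitiveRoot_exp n hn

theorem zt_ne_zero (n : ℕ) : zt n ≠ 0 := Complex.exp_ne_zero _

theorem zt_pow_self {n : ℕ} (hn : n ≠ 0) : zt n ^ n = 1 := (zt_prim hn).pow_eq_one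

theorem zt_pow_left {p q : ℕ} (hp : p ≠ 0) (hq : q ≠ 0) : zt (q * p) ^ q = zt p := by
  unfold zt
  rw [← Complex.exp_nat_mul]
  have h1 : (p : ℂ) ≠ 0 := Nat.cast_ne_zero.mpr hp
  have h2 : (q : ℂ) ≠ 0 := Nat.cast_ne_zero.mpr hq
  have h3 : (q : ℂ) * (2 * Real.pi * Complex.I / ((q * p : ℕ) : ℂ)) =
      2 * Real.pi * Complex.I / (p : ℂ) := by
    push_cast
    field_simp
  rw [h3]

theorem zt_pow_right {p q : ℕ} (hp : p ≠ 0) (hq : q ≠ 0) : zt (q * p) ^ p = zt q := by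
  rw [mul_comm q p]
  exact zt_pow_left hq hp

/-- Entry `k` of the transform `F_n` of the first `n` entries of `x`. -/
noncomputable def D (n k : ℕ) (x : ℕ → ℂ) : ℂ := ∑ j ∈ Finset.range n, zt n ^ (j * k) * x j

theorem sum_range_mul' (q m : ℕ) (f : ℕ → ℂ) :
    ∑ j ∈ Finset.range (q * m), f j =
      ∑ j0 ∈ Finset.range q, ∑ j1 ∈ Finset.range m, f (j0 + q * j1) := by
  induction m with
  | zero => simp
  | succ m ih =>
    rw [Nat.mul_succ, Finset.sum_range_add, ih, ← Finset.sum_add_distrib]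
    refine Finset.sum_congr rfl fun j0 _ => ?_
    rw [Finset.sum_range_succ, add_comm (q * m) j0]

theorem zt_split {p q : ℕ} (hp : p ≠ 0) (hq : q ≠ 0) (j0 j1 k0 k1 : ℕ) :
    zt (q * p) ^ ((j0 + q * j1) * (k0 + p * k1)) =
      zt q ^ (j0 * k1) * (zt (q * p) ^ (j0 * k0) * zt p ^ (j1 * k0)) := by
  have h1 : zt (q * p) ^ (q * p) = 1 := zt_pow_self (Nat.mul_ne_zero hq hp)
  have h2 : (j0 + q * j1) * (k0 + p * k1) =
      p * (j0 * k1) + j0 * k0 + q * (j1 * k0) + (q * p) * (j1 * k1) := by ring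
  rw [h2, pow_add, pow_add, pow_add, pow_mul _ (q * p), h1, one_pow, mul_one,
    pow_mul _ q, zt_pow_left hp hq, pow_mul _ p, zt_pow_right hp hq]
  ring

theorem D_split {p q : ℕ} (hp : p ≠ 0) (hq : q ≠ 0) (k0 k1 : ℕ) (x : ℕ → ℂ) :
    D (q * p) (k0 + p * k1) x = ∑ j0 ∈ Finset.range q, zt q ^ (j0 * k1) *
      (zt (q * p) ^ (j0 * k0) * D p k0 fun j1 => x (j0 + q * j1)) := by
  unfold D
  rw [sum_range_mul']
  refine Finset.sum_congr rfl fun j0 _ => ?_
  rw [Finset.mul_sum, Finset.mul_sum]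
  refine Finset.sum_congr rfl fun j1 _ => ?_
  rw [zt_split hp hq]
  ring

theorem D_add_mul (n k t : ℕ) (x : ℕ → ℂ) : D n (k + n * t) x = D n k x := by
  rcases Nat.eq_zero_or_pos n with rfl | hn
  · simp [D]
  · unfold D
    refine Finset.sum_congr rfl fun j _ => ?_
    have h : j * (k + n * t) = j * k + n * (j * t) := by ring
    rw [h, pow_add, pow_mul _ n, zt_pow_self hn.ne', one_pow, mul_one]

/-- The first `n` inputs. -/
def coords (n : ℕ) : Set ((ℕ → ℂ) → ℂ) := {u | ∃ j < n, u = fun x => x j}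

/-- The entries of `F_n`, multiplied by `β k`. -/
def outs (n : ℕ) (β : ℕ → ℂ) : Set ((ℕ → ℂ) → ℂ) := {u | ∃ k < n, u = fun x => β k * D n k x}

/-- At most `s` gates compute the entries of `F_n` multiplied by some nonzero scalars. -/
def Sc (n s : ℕ) : Prop := ∃ β : ℕ → ℂ, (∀ k, β k ≠ 0) ∧ Can (coords n) s (outs n β)

/-- At most `K` gates compute `diag(b) F_q diag(a)` for some `a`, `b` without zero entries. -/
def Ker (q K : ℕ) : Prop := ∃ a b : ℕ → ℂ, (∀ j, a j ≠ 0) ∧ (∀ k, b k ≠ 0) ∧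
  Can (coords q) K {u | ∃ k < q, u = fun x => b k * D q k fun j => a j * x j}

theorem Sc.mono {n s t : ℕ} (h : Sc n s) (hst : s ≤ t) : Sc n t := by
  obtain ⟨β, hβ, hc⟩ := h
  exact ⟨β, hβ, hc.mono Subset.rfl hst Subset.rfl⟩

theorem Sc.one : Sc 1 0 := by
  refine ⟨fun _ => 1, fun _ => one_ne_zero, Can.of_subset ?_ _⟩
  rintro u ⟨k, hk, rfl⟩
  refine ⟨0, one_pos, ?_⟩
  funext x
  obtain rfl : k = 0 := by omega
  simp [D]

theorem Sc.step {q m s K : ℕ} (hq : 0 < q) (hm : 0 < m) (hK : Ker q K) (h : Sc m s) :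
    Sc (q * m) (q * s + m * (q - 1 + K)) := by
  obtain ⟨β, hβ, hc⟩ := h
  obtain ⟨a, b, ha, hb, hk⟩ := hK
  -- stage 1
  let z : ℕ → ℕ → (ℕ → ℂ) → ℂ := fun j0 k0 x => β k0 * D m k0 fun j => x (j0 + q * j)
  have st1 : Can (coords (q * m)) (q * s) {u | ∃ j0 < q, u ∈ {v | ∃ k0 < m, v = z j0 k0}} := by
    have := Can.range (S := coords (q * m)) q (fun _ => s)
      (fun j0 => {v | ∃ k0 < m, v = z j0 k0}) (by
        intro j0 hj0
        refine hc.pull (fun (x : ℕ → ℂ) j => x (j0 + q * j)) ?_ ?_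
        · rintro u ⟨j, hj, rfl⟩
          refine ⟨j0 + q * j, ?_, rfl⟩
          calc j0 + q * j < q + q * j := by omega
            _ = q * (j + 1) := by ring
            _ ≤ q * m := Nat.mul_le_mul_left _ hj
        · rintro w ⟨k0, hk0, rfl⟩
          exact ⟨_, ⟨k0, hk0, rfl⟩, rfl⟩)
    simpa using this
  -- stage 2
  have st2 : ∀ k0 < m, Can {u | ∃ j0 < q, u ∈ {v | ∃ k0 < m, v = z j0 k0}} (q - 1 + K)
      {u | ∃ k1 < q, u = fun x => b k1 * (β k0 * a 0) * D (q * m) (k0 + m * k1) x} := by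
    intro k0 hk0
    let w : ℕ → (ℕ → ℂ) → ℂ := fun j0 =>
      (a 0 / a j0 * zt (q * m) ^ (j0 * k0)) • z j0 k0
    have s1 : Can {u | ∃ j0 < q, u ∈ {v | ∃ k0 < m, v = z j0 k0}} (q - 1)
        {u | ∃ j0 < q, u = w j0} := by
      have h1 := Can.range (S := {u | ∃ j0 < q, u ∈ {v | ∃ k0 < m, v = z j0 k0}}) (q - 1)
        (fun _ => 1) (fun j => {w (j + 1)}) (by
          intro j hj
          have hmem : z (j + 1) k0 ∈
              {u | ∃ j0 < q, u ∈ {v | ∃ k0 < m, v = z j0 k0}} :=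
            ⟨j + 1, by omega, k0, hk0, rfl⟩
          exact Can.smul hmem _)
      have h0 : Can {u | ∃ j0 < q, u ∈ {v | ∃ k0 < m, v = z j0 k0}} 0 {w 0} := by
        refine Can.of_subset ?_ _
        rintro u rfl
        refine ⟨0, hq, k0, hk0, ?_⟩
        have : w 0 = (1 : ℂ) • z 0 k0 := by
          simp only [w]
          rw [div_self (ha 0), Nat.zero_mul, pow_zero, mul_one]
        rw [this, one_smul]
      refine (h1.union h0).mono Subset.rfl ?_ ?_
      · simp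
      · rintro u ⟨j0, hj0, rfl⟩
        rcases Nat.eq_zero_or_pos j0 with rfl | hpos
        · exact Or.inr rfl
        · refine Or.inl ⟨j0 - 1, by omega, ?_⟩
          rw [Nat.sub_add_cancel hpos]
          rfl
    refine s1.trans (hk.pull (fun (x : ℕ → ℂ) j0 => w j0 x) ?_ ?_)
    · rintro u ⟨j, hj, rfl⟩
      exact ⟨j, hj, rfl⟩
    · rintro u ⟨k1, hk1, rfl⟩
      refine ⟨_, ⟨k1, hk1, rfl⟩, ?_⟩
      funext x
      rw [D_split hm.ne' hq.ne', mul_assoc]
      congr 1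
      unfold D
      rw [Finset.mul_sum]
      refine Finset.sum_congr rfl fun j0 _ => ?_
      have h1 : w j0 x = a 0 / a j0 * zt (q * m) ^ (j0 * k0) *
          (β k0 * D m k0 fun j => x (j0 + q * j)) := rfl
      have h2 := ha j0
      change _ = zt q ^ (j0 * k1) * (a j0 * w j0 x)
      rw [h1]
      change β k0 * a 0 * (zt q ^ (j0 * k1) * (zt (q * m) ^ (j0 * k0) *
        D m k0 fun j1 => x (j0 + q * j1))) = _
      field_simp
  have st3 := Can.range m (fun _ => q - 1 + K) _ st2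
  refine ⟨fun k => b (k / m) * (β (k % m) * a 0),
    fun k => mul_ne_zero (hb _) (mul_ne_zero (hβ _) (ha 0)), ?_⟩
  have h4 := st1.trans st3
  refine h4.mono Subset.rfl (by simp) ?_
  rintro u ⟨k, hk, rfl⟩
  refine ⟨k % m, Nat.mod_lt _ hm, k / m, Nat.div_lt_of_lt_mul (by rwa [mul_comm m q]), ?_⟩
  funext x
  simp only
  rw [Nat.mod_add_div]

theorem Sc.pow {q K : ℕ} (hq : 0 < q) (hK : Ker q K) {m s : ℕ} (hm : 0 < m) (h : Sc m s) (j : ℕ) :
    Sc (q ^ j * m) (q ^ j * s + j * (q ^ (j - 1) * m * (q - 1 + K))) := by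
  induction j with
  | zero => simpa using h
  | succ j ih =>
    have h1 := Sc.step hq (Nat.mul_pos (pow_pos hq j) hm) hK ih
    have h2 : q * (q ^ j * m) = q ^ (j + 1) * m := by ring
    rw [h2] at h1
    refine h1.mono (le_of_eq ?_)
    rcases Nat.eq_zero_or_pos j with rfl | hj
    · simp
    · have h3 : q * q ^ (j - 1) = q ^ j := by
        rw [← pow_succ']
        congr 1
        omega
      calc q * (q ^ j * s + j * (q ^ (j - 1) * m * (q - 1 + K))) + q ^ j * m * (q - 1 + K)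
          = q * q ^ j * s + j * ((q * q ^ (j - 1)) * m * (q - 1 + K)) +
            q ^ j * m * (q - 1 + K) := by ring
        _ = q ^ (j + 1) * s + (j + 1) * (q ^ (j + 1 - 1) * m * (q - 1 + K)) := by
            rw [h3, Nat.add_sub_cancel]
            ring

/-- From scaled outputs to exact outputs. -/
theorem unscale {X : Type} (n : ℕ) (u : ℕ → X → ℂ) (c : ℕ → ℂ) (hc : ∀ k, c k ≠ 0)
    (V : Set (ℕ × (X → ℂ))) (h : ∀ k < n, Has V (c k • u k)) :
    ∃ V', Steps Set.univ V n V' ∧ ∀ k < n, ∃ d, (d, u k) ∈ V' := by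
  induction n with
  | zero => exact ⟨V, .zero, fun k hk => absurd hk (Nat.not_lt_zero _)⟩
  | succ n ih =>
    obtain ⟨V', hV', hu⟩ := ih fun k hk => h k (Nat.lt_succ_of_lt hk)
    obtain ⟨d, hd⟩ := (h n (Nat.lt_succ_self n)).mono (steps_subset hV')
    have key : ∃ e : ℂ, ∃ v, (d, v) ∈ V' ∧ e • v = u n := by
      rcases hd with hd | hd
      · exact ⟨(c n)⁻¹, _, hd, by rw [smul_smul, inv_mul_cancel₀ (hc n), one_smul]⟩
      · refine ⟨-(c n)⁻¹, _, hd, ?_⟩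
        rw [neg_smul_neg, smul_smul, inv_mul_cancel₀ (hc n), one_smul]
    obtain ⟨e, v, hv, hev⟩ := key
    refine ⟨_, .smul e hV' hv (Set.mem_univ _), ?_⟩
    intro k hk
    rcases Nat.lt_succ_iff_lt_or_eq.mp hk with hk | rfl
    · obtain ⟨d', hd'⟩ := hu k hk
      exact ⟨d', mem_insert_of_mem _ hd'⟩
    · refine ⟨d + 1, ?_⟩
      rw [hev]
      exact mem_insert _ _

theorem Sc.L_le {n s : ℕ} (h : Sc n s) : L n ≤ s + n := by
  obtain ⟨β, hβ, hc⟩ := h
  let φ : (Fin n → ℂ) → ℕ → ℂ := fun x j => if hj : j < n then x ⟨j, hj⟩ else 0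
  have h1 : Can {u | ∃ k : Fin n, u = fun x : Fin n → ℂ => x k} s
      {u | ∃ k < n, u = fun x : Fin n → ℂ => β k * D n k (φ x)} := by
    refine hc.pull φ ?_ ?_
    · rintro u ⟨j, hj, rfl⟩
      refine ⟨⟨j, hj⟩, ?_⟩
      funext x
      simp only [φ, hj, dif_pos]
    · rintro w ⟨k, hk, rfl⟩
      exact ⟨_, ⟨k, hk, rfl⟩, rfl⟩
  obtain ⟨s', hs', V, hV, hW⟩ := h1 (inputs (Fin n)) ⟨0, Or.inl ⟨rfl, Or.inl rfl⟩⟩ (by
    rintro u ⟨k, rfl⟩
    exact ⟨0, Or.inl ⟨rfl, Or.inr ⟨k, rfl⟩⟩⟩)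
  obtain ⟨V', hV', hu⟩ := unscale n (fun k => fun x : Fin n → ℂ => D n k (φ x)) β hβ V (by
    intro k hk
    exact hW _ ⟨k, hk, rfl⟩)
  have h2 : Computes Set.univ ⊤ (dft n) (s' + n) := by
    refine ⟨V', steps_trans hV hV', ?_⟩
    intro j
    obtain ⟨d, hd⟩ := hu j.1 j.2
    refine ⟨d, le_top, ?_⟩
    have h3 : (fun x : Fin n → ℂ => D n j.1 (φ x)) = dft n j := by
      funext x
      unfold D dft
      rw [Finset.sum_range]
      refine Finset.sum_congr rfl fun k _ => ?_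
      have : φ x k = x k := by simp only [φ, k.2, dif_pos]
      rw [this, mul_comm (k : ℕ) (j : ℕ)]
      rfl
    rw [← h3]
    exact hd
  have h3 : L n ≤ s' + n := Nat.sInf_le h2
  omega

/-- For some `a`, `b` without zero entries, some linear circuit with at most `K` gates computes
`diag(b) F_q diag(a)`. -/
def ScaledDFT (q K : ℕ) : Prop :=
  ∃ a b : Fin q → ℂ, (∀ j, a j ≠ 0) ∧ (∀ k, b k ≠ 0) ∧ ∃ s ≤ K,
    Computes Set.univ ⊤ (fun (k : Fin q) (x : Fin q → ℂ) => b k * dft q k fun j => a j * x j) s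

theorem ScaledDFT.ker {q K : ℕ} (h : ScaledDFT q K) : Ker q K := by
  obtain ⟨a, b, ha, hb, s, hs, V, hV, hout⟩ := h
  refine ⟨fun j => if hj : j < q then a ⟨j, hj⟩ else 1, fun k => if hk : k < q then b ⟨k, hk⟩ else 1,
    ?_, ?_, ?_⟩
  · intro j
    dsimp only
    split_ifs with hj
    · exact ha _
    · exact one_ne_zero
  · intro k
    dsimp only
    split_ifs with hk
    · exact hb _
    · exact one_ne_zero
  · intro W h0 hW
    obtain ⟨U, hU, hU'⟩ := run hV (fun (x : ℕ → ℂ) (j : Fin q) => x j) (V := W) (by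
      rintro ⟨d, u⟩ ⟨_, rfl | ⟨k, rfl⟩⟩
      · exact h0
      · exact hW _ ⟨k.1, k.2, rfl⟩)
    refine ⟨s, hs, U, hU, ?_⟩
    rintro u ⟨k, hk, rfl⟩
    obtain ⟨d, _, hd⟩ := hout ⟨k, hk⟩
    have h1 := hU' _ hd
    have h2 : (fun x : ℕ → ℂ => b ⟨k, hk⟩ * dft q ⟨k, hk⟩ fun j : Fin q => a j * x j) =
        fun x : ℕ → ℂ => (if hk : k < q then b ⟨k, hk⟩ else 1) *
          D q k fun j => (if hj : j < q then a ⟨j, hj⟩ else 1) * x j := by
      funext x
      rw [dif_pos hk]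
      congr 1
      unfold D dft
      rw [Finset.sum_range]
      refine Finset.sum_congr rfl fun j _ => ?_
      change Complex.exp (2 * Real.pi * Complex.I / q) ^ (k * (j : ℕ)) * (a j * x j) =
        Complex.exp (2 * Real.pi * Complex.I / q) ^ ((j : ℕ) * k) *
          ((if hj : (j : ℕ) < q then a ⟨j, hj⟩ else 1) * x j)
      rw [dif_pos j.2, mul_comm k (j : ℕ)]
    rw [← h2]
    exact h1

theorem Ker.scaledDFT {q K : ℕ} (h : Ker q K) : ScaledDFT q K := by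
  obtain ⟨a, b, ha, hb, hc⟩ := h
  let φ : (Fin q → ℂ) → ℕ → ℂ := fun x j => if hj : j < q then x ⟨j, hj⟩ else 0
  have h1 : Can {u | ∃ k : Fin q, u = fun x : Fin q → ℂ => x k} K
      {u | ∃ k < q, u = fun x : Fin q → ℂ => b k * D q k fun j => a j * φ x j} := by
    refine hc.pull φ ?_ ?_
    · rintro u ⟨j, hj, rfl⟩
      refine ⟨⟨j, hj⟩, ?_⟩
      funext x
      simp only [φ, hj, dif_pos]
    · rintro w ⟨k, hk, rfl⟩
      exact ⟨_, ⟨k, hk, rfl⟩, rfl⟩
  obtain ⟨s', hs', V, hV, hW⟩ := h1 (inputs (Fin q)) ⟨0, Or.inl ⟨rfl, Or.inl rfl⟩⟩ (by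
    rintro u ⟨k, rfl⟩
    exact ⟨0, Or.inl ⟨rfl, Or.inr ⟨k, rfl⟩⟩⟩)
  have h2 : ∀ k : Fin q, ∃ e : ℂ, e ≠ 0 ∧ ∃ d,
      (d, e • fun x : Fin q → ℂ => b k * D q k fun j => a j * φ x j) ∈ V := by
    intro k
    obtain ⟨d, hd | hd⟩ := hW _ ⟨k.1, k.2, rfl⟩
    · exact ⟨1, one_ne_zero, d, by rwa [one_smul]⟩
    · exact ⟨-1, neg_ne_zero.mpr one_ne_zero, d, by rwa [neg_smul, one_smul]⟩
  choose e he d hd using h2
  refine ⟨fun j => a j, fun k => e k * b k, fun j => ha j, fun k => mul_ne_zero (he k) (hb k),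
    s', hs', V, hV, ?_⟩
  intro k
  refine ⟨d k, le_top, ?_⟩
  have h3 : (e k • fun x : Fin q → ℂ => b k * D q k fun j => a j * φ x j) =
      fun x : Fin q → ℂ => e k * b k * dft q k fun j => a j * x j := by
    funext x
    change e k * (b k * D q k fun j => a j * φ x j) = _
    rw [mul_assoc]
    congr 2
    unfold D dft
    rw [Finset.sum_range]
    refine Finset.sum_congr rfl fun j _ => ?_
    have : φ x j = x j := by simp only [φ, j.2, dif_pos]
    change zt q ^ ((j : ℕ) * (k : ℕ)) * (a j * φ x j) = zt q ^ ((k : ℕ) * (j : ℕ)) * (a j * x j)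
    rw [this, mul_comm (k : ℕ) (j : ℕ)]
  have h4 := hd k
  rw [h3] at h4
  exact h4

/-- Amplification: a circuit for `diag(b) F_q diag(a)` gives circuits for `F_{q^j}`. -/
theorem amplify {q K : ℕ} (hq : 0 < q) (h : ScaledDFT q K) (j : ℕ) :
    L (q ^ j) ≤ j * (q ^ (j - 1) * (K + q - 1)) + q ^ j := by
  have h1 := (Sc.pow hq h.ker one_pos Sc.one j)
  rw [mul_one] at h1
  refine h1.L_le.trans (le_of_eq ?_)
  rw [Nat.mul_zero, Nat.zero_add, Nat.mul_one]
  congr 3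
  omega

theorem ker_two : Ker 2 2 := by
  refine ⟨fun _ => 1, fun _ => 1, fun _ => one_ne_zero, fun _ => one_ne_zero, ?_⟩
  have hz : zt 2 = -1 := (zt_prim two_ne_zero).eq_neg_one_of_two_right
  have h1 := Can.addsub (X := ℕ → ℂ) (fun x => x 0) (fun x => x 1)
  refine h1.mono ?_ le_rfl ?_
  · rintro u (rfl | rfl)
    · exact ⟨0, by norm_num, rfl⟩
    · exact ⟨1, by norm_num, rfl⟩
  · rintro u ⟨k, hk, rfl⟩
    have hk' : k = 0 ∨ k = 1 := by omega
    rcases hk' with rfl | rfl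
    · left
      funext x
      simp [D, Finset.sum_range_succ]
    · right
      change _ = _
      funext x
      simp [D, Finset.sum_range_succ, hz]
      ring

/-- All powers of two. -/
theorem powers {r K : ℕ} (hr : 0 < r) (h : Ker (2 ^ r) K) (k : ℕ) :
    r * 2 ^ r * L (2 ^ k) ≤ (K + 2 ^ r - 1) * (k * 2 ^ k) + r * 2 ^ r * ((3 * r + 1) * 2 ^ k) := by
  set j := k / r with hj
  set t := k % r with ht
  have hk : r * j + t = k := Nat.div_add_mod k r
  have htr : t < r := Nat.mod_lt _ hr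
  have h1 := Sc.pow (pow_pos two_pos r) h one_pos Sc.one j
  rw [mul_one, mul_zero, zero_add, mul_one] at h1
  have h2 := Sc.pow two_pos ker_two (pow_pos (pow_pos two_pos r) j) h1 t
  have h3 := h2.L_le
  have hpow : 2 ^ t * (2 ^ r) ^ j = 2 ^ k := by
    rw [← pow_mul, ← pow_add, add_comm, hk]
  rw [hpow] at h3
  have hB : 2 ^ r - 1 + K = K + 2 ^ r - 1 := by
    have : 0 < 2 ^ r := pow_pos two_pos r
    omega
  rw [hB] at h3
  set B := K + 2 ^ r - 1 with hBdef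
  -- the main term
  have e1 : r * 2 ^ r * (2 ^ t * (j * ((2 ^ r) ^ (j - 1) * B))) ≤ B * (k * 2 ^ k) := by
    rcases Nat.eq_zero_or_pos j with h0 | hpos
    · rw [h0]; simp
    · have e2 : 2 ^ r * (2 ^ r) ^ (j - 1) = (2 ^ r) ^ j := by
        rw [← pow_succ']
        congr 1
        omega
      calc r * 2 ^ r * (2 ^ t * (j * ((2 ^ r) ^ (j - 1) * B)))
          = B * ((r * j) * (2 ^ t * (2 ^ r * (2 ^ r) ^ (j - 1)))) := by ring
        _ = B * ((r * j) * 2 ^ k) := by rw [e2, hpow]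
        _ ≤ B * (k * 2 ^ k) := by
            refine Nat.mul_le_mul_left _ (Nat.mul_le_mul_right _ ?_)
            omega
  have e3 : t * (2 ^ (t - 1) * (2 ^ r) ^ j * (2 - 1 + 2)) ≤ 3 * r * 2 ^ k := by
    have e4 : 2 ^ (t - 1) * (2 ^ r) ^ j ≤ 2 ^ k := by
      rw [← hpow]
      exact Nat.mul_le_mul_right _ (Nat.pow_le_pow_right two_pos (Nat.sub_le _ _))
    calc t * (2 ^ (t - 1) * (2 ^ r) ^ j * (2 - 1 + 2))
        = 3 * t * (2 ^ (t - 1) * (2 ^ r) ^ j) := by ring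
      _ ≤ 3 * r * 2 ^ k := Nat.mul_le_mul (by omega) e4
  calc r * 2 ^ r * L (2 ^ k)
      ≤ r * 2 ^ r * (2 ^ t * (j * ((2 ^ r) ^ (j - 1) * B)) +
        t * (2 ^ (t - 1) * (2 ^ r) ^ j * (2 - 1 + 2)) + 2 ^ k) := Nat.mul_le_mul_left _ h3
    _ = r * 2 ^ r * (2 ^ t * (j * ((2 ^ r) ^ (j - 1) * B))) +
        r * 2 ^ r * (t * (2 ^ (t - 1) * (2 ^ r) ^ j * (2 - 1 + 2)) + 2 ^ k) := by ring
    _ ≤ B * (k * 2 ^ k) + r * 2 ^ r * (3 * r * 2 ^ k + 2 ^ k) :=
        Nat.add_le_add e1 (Nat.mul_le_mul_left _ (Nat.add_le_add_right e3 _))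
    _ = B * (k * 2 ^ k) + r * 2 ^ r * ((3 * r + 1) * 2 ^ k) := by ring

end Vale.Agent.P344.H260
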