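import Vale.Agent.P344.H260.Potential
import Vale.Agent.P344.H952.Main

/-!
# The lower limit of `L(n) / (n log n)`
-/

namespace Vale.Agent.P344.H260

open Filter

theorem pow_mul_le_one {x : ℝ} (hx : 0 ≤ x) (hx1 : x ≤ 1) (m : ℕ) :
    (1 + x) ^ m * (1 - m * x) ≤ 1 := by
  have h1 : 1 - m * x ≤ (1 - x) ^ m := by
    have := one_add_mul_le_pow (a := -x) (by linarith) m
    calc 1 - m * x = 1 + m * -x := by ring
      _ ≤ (1 + -x) ^ m := this
      _ = (1 - x) ^ m := by ring_nf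
  calc (1 + x) ^ m * (1 - m * x) ≤ (1 + x) ^ m * (1 - x) ^ m :=
        mul_le_mul_of_nonneg_left h1 (by positivity)
    _ = (1 - x * x) ^ m := by rw [← mul_pow]; ring_nf
    _ ≤ 1 := pow_le_one₀ (by nlinarith) (by nlinarith)

theorem poly_ineq {η : ℝ} (h0 : 0 ≤ η) (h1 : η ≤ 1 / 8) :
    (3 - 2 * η) ^ 3 * (1 - η) ^ 4 ≤ (1 + 7 * η ^ 2) * (27 * (1 - 2 * η) ^ 3) := by
  have key : (1 + 7 * η ^ 2) * (27 * (1 - 2 * η) ^ 3) - (3 - 2 * η) ^ 3 * (1 - η) ^ 4 =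
      η ^ 2 * (99 - 766 * η + 1777 * η ^ 2 - 1266 * η ^ 3 - 68 * η ^ 4 + 8 * η ^ 5) := by ring
  have h2 : 0 ≤ 99 - 766 * η + 1777 * η ^ 2 - 1266 * η ^ 3 - 68 * η ^ 4 + 8 * η ^ 5 := by
    have a1 : η ^ 3 ≤ η ^ 2 * (1 / 8) := by
      calc η ^ 3 = η ^ 2 * η := by ring
        _ ≤ η ^ 2 * (1 / 8) := mul_le_mul_of_nonneg_left h1 (by positivity)
    have a2 : η ^ 4 ≤ η ^ 2 * (1 / 64) := by
      calc η ^ 4 = η ^ 2 * (η * η) := by ring
        _ ≤ η ^ 2 * (1 / 64) := mul_le_mul_of_nonneg_left (by nlinarith) (by positivity)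
    have a3 : 0 ≤ η ^ 5 := by positivity
    have a4 : 0 ≤ η ^ 2 := by positivity
    nlinarith
  have h3 : 0 ≤ η ^ 2 * (99 - 766 * η + 1777 * η ^ 2 - 1266 * η ^ 3 - 68 * η ^ 4 + 8 * η ^ 5) :=
    mul_nonneg (by positivity) h2
  linarith

/-- For slopes slightly above `4 / 3` the exponential term decays. -/
theorem exists_rate (m : ℕ) (hm : 1 ≤ m) : ∃ v : ℝ, 1 < v ∧ v ≤ 2 ∧
    ((v + 1) / (v - 1) / 3) ^ (3 * m) * (v / 2) ^ (4 * m + 1) < 1 := by
  have hm0 : (1 : ℝ) ≤ m := by exact_mod_cast hm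
  set η : ℝ := 1 / (8 * m) with hη
  have hη0 : 0 < η := by positivity
  have hη8 : η ≤ 1 / 8 := by
    rw [hη]
    exact one_div_le_one_div_of_le (by norm_num) (by linarith)
  have hmη : m * η = 1 / 8 := by rw [hη]; field_simp
  refine ⟨2 - 2 * η, by linarith, by linarith, ?_⟩
  have e1 : (2 - 2 * η) / 2 = 1 - η := by ring
  have e2 : (2 - 2 * η + 1) / (2 - 2 * η - 1) / 3 = (3 - 2 * η) / (3 * (1 - 2 * η)) := by
    have : 2 - 2 * η - 1 = 1 - 2 * η := by ring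
    rw [this]
    have h3 : 1 - 2 * η ≠ 0 := by linarith
    field_simp
    ring
  rw [e1, e2]
  have h4 : ((3 - 2 * η) / (3 * (1 - 2 * η))) ^ 3 * (1 - η) ^ 4 ≤ 1 + 7 * η ^ 2 := by
    have h5 : 0 < 27 * (1 - 2 * η) ^ 3 := by
      have : 0 < 1 - 2 * η := by linarith
      positivity
    have h6 : ((3 - 2 * η) / (3 * (1 - 2 * η))) ^ 3 * (1 - η) ^ 4 =
        (3 - 2 * η) ^ 3 * (1 - η) ^ 4 / (27 * (1 - 2 * η) ^ 3) := by
      rw [div_pow]
      have : (3 * (1 - 2 * η)) ^ 3 = 27 * (1 - 2 * η) ^ 3 := by ring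
      rw [this]
      ring
    rw [h6, div_le_iff₀ h5]
    exact poly_ineq hη0.le hη8
  have h7 : ((3 - 2 * η) / (3 * (1 - 2 * η))) ^ (3 * m) * (1 - η) ^ (4 * m + 1) =
      (((3 - 2 * η) / (3 * (1 - 2 * η))) ^ 3 * (1 - η) ^ 4) ^ m * (1 - η) := by
    rw [mul_pow, ← pow_mul, ← pow_mul, pow_succ, mul_assoc]
  have h8 : 0 ≤ ((3 - 2 * η) / (3 * (1 - 2 * η))) ^ 3 * (1 - η) ^ 4 := by
    have a1 : 0 ≤ (3 - 2 * η) / (3 * (1 - 2 * η)) := by
      apply div_nonneg <;> linarith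
    have a2 : 0 ≤ 1 - η := by linarith
    positivity
  have h9 : (1 : ℝ) - η < 1 - m * (7 * η ^ 2) := by
    have : m * (7 * η ^ 2) = 7 / 8 * η := by
      calc m * (7 * η ^ 2) = 7 * (m * η) * η := by ring
        _ = 7 / 8 * η := by rw [hmη]; ring
    rw [this]
    linarith
  have h10 : 0 < (1 + 7 * η ^ 2) ^ m := by positivity
  rw [h7]
  calc (((3 - 2 * η) / (3 * (1 - 2 * η))) ^ 3 * (1 - η) ^ 4) ^ m * (1 - η)
      ≤ (1 + 7 * η ^ 2) ^ m * (1 - η) :=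
        mul_le_mul_of_nonneg_right (pow_le_pow_left₀ h8 h4 m) (by linarith)
    _ < (1 + 7 * η ^ 2) ^ m * (1 - m * (7 * η ^ 2)) := mul_lt_mul_of_pos_left h9 h10
    _ ≤ 1 := pow_mul_le_one (by positivity) (by nlinarith) m

theorem gam_chain_aux (m : ℕ) (hm : 1 ≤ m) :
    gam * ((4 * m + 1) + 3 * m * Real.logb 2 3) ≤ 12 * m + 3 / 2 := by
  obtain ⟨v, hv, hv2, hρ1⟩ := exists_rate m hm
  set ρ := ((v + 1) / (v - 1) / 3) ^ (3 * m) * (v / 2) ^ (4 * m + 1) with hρ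
  have hv1 : 0 < v - 1 := by linarith
  have hρ0 : 0 ≤ ρ := by
    have : 0 ≤ (v + 1) / (v - 1) / 3 := by positivity
    positivity
  set lam := Real.logb 2 3 with hlam
  have key : ∀ t : ℕ, 1 ≤ t → gam * (((4 * m + 1) + 3 * m * lam) * t) ≤
      (12 * m + 3 / 2) * t + 3 + 3 * m * (t * ρ ^ t) := by
    intro t ht
    have h1 := L_two_three hv hv2 ((4 * m + 1) * t) (3 * m * t)
    have h2 : 2 ≤ 2 ^ ((4 * m + 1) * t) * 3 ^ (3 * m * t) := by
      have a1 : 2 ^ 1 ≤ 2 ^ ((4 * m + 1) * t) := Nat.pow_le_pow_right two_pos (by nlinarith)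
      have a2 : 1 ≤ 3 ^ (3 * m * t) := Nat.one_le_pow _ _ (by norm_num)
      nlinarith
    have h3 := lower_one h2
    have h4 : Real.logb 2 ((2 ^ ((4 * m + 1) * t) * 3 ^ (3 * m * t) : ℕ) : ℝ) =
        ((4 * m + 1) + 3 * m * lam) * t := by
      push_cast
      rw [Real.logb_mul (by positivity) (by positivity), Real.logb_pow, Real.logb_pow,
        Real.logb_self_eq_one (by norm_num)]
      push_cast
      ring
    rw [h4] at h3
    set N : ℝ := ((2 ^ ((4 * m + 1) * t) * 3 ^ (3 * m * t) : ℕ) : ℝ) with hN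
    have hN0 : 0 < N := by rw [hN]; positivity
    have hN' : (2 : ℝ) ^ ((4 * m + 1) * t) * 3 ^ (3 * m * t) = N := by rw [hN]; push_cast; ring
    have h5 : ((v + 1) / (v - 1)) ^ (3 * m * t) * v ^ ((4 * m + 1) * t) = N * ρ ^ t := by
      rw [← hN', hρ, mul_pow, ← pow_mul, ← pow_mul]
      have a1 : (v + 1) / (v - 1) = 3 * ((v + 1) / (v - 1) / 3) := by ring
      have a2 : v = 2 * (v / 2) := by ring
      calc ((v + 1) / (v - 1)) ^ (3 * m * t) * v ^ ((4 * m + 1) * t)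
          = (3 * ((v + 1) / (v - 1) / 3)) ^ (3 * m * t) * (2 * (v / 2)) ^ ((4 * m + 1) * t) := by
            rw [← a1, ← a2]
        _ = _ := by rw [mul_pow, mul_pow]; ring
    rw [hN'] at h1
    have h6 : ((3 * m * t : ℕ) : ℝ) * ((v + 1) / (v - 1)) ^ (3 * m * t) * v ^ ((4 * m + 1) * t) =
        N * (3 * m * (t * ρ ^ t)) := by
      rw [mul_assoc, h5]
      push_cast
      ring
    rw [h6] at h1
    push_cast at h1
    have h7 : N * (gam * (((4 * m + 1) + 3 * m * lam) * t)) ≤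
        N * ((12 * m + 3 / 2) * t + 3 + 3 * m * (t * ρ ^ t)) := by
      have h8 : (L (2 ^ ((4 * m + 1) * t) * 3 ^ (3 * m * t)) : ℝ) ≤
        N * (3 / 2 * ((4 * m + 1) * t) + 2 * (3 * m * t) + 2) + N * (3 * m * (t * ρ ^ t)) := h1
      linarith
    exact le_of_mul_le_mul_left h7 hN0
  by_contra hcon
  push Not at hcon
  set ε := gam * ((4 * m + 1) + 3 * m * lam) - (12 * m + 3 / 2) with hε
  have hε0 : 0 < ε := by linarith
  have hlim : Tendsto (fun t : ℕ => (t : ℝ) * ρ ^ t) atTop (nhds 0) :=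
    tendsto_self_mul_const_pow_of_lt_one hρ0 hρ1
  have hev : ∀ᶠ t : ℕ in atTop, (t : ℝ) * ρ ^ t < 1 := hlim.eventually (gt_mem_nhds one_pos)
  obtain ⟨t, ht1, ht2, ht3⟩ := (hev.and ((eventually_ge_atTop 1).and
    (eventually_gt_atTop ⌈(3 + 3 * (m : ℝ)) / ε⌉₊))).exists
  have h1 := key t ht2
  have h2 : (3 + 3 * (m : ℝ)) / ε < t := lt_of_le_of_lt (Nat.le_ceil _) (by exact_mod_cast ht3)
  rw [div_lt_iff₀ hε0] at h2
  have h3 : gam * (((4 * m + 1) + 3 * m * lam) * t) - (12 * m + 3 / 2) * t = t * ε := by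
    rw [hε]; ring
  have hm0 : (0 : ℝ) ≤ m := Nat.cast_nonneg m
  nlinarith

theorem gam_le_chain : gam ≤ 12 / (4 + 3 * Real.logb 2 3) := by
  have hl : 0 < Real.logb 2 3 := Real.logb_pos (by norm_num) (by norm_num)
  rw [le_div_iff₀ (by positivity)]
  by_contra hcon
  push Not at hcon
  set ε := gam * (4 + 3 * Real.logb 2 3) - 12 with hε
  have hε0 : 0 < ε := by linarith
  obtain ⟨m, hm⟩ := exists_nat_gt (2 / ε)
  have hm1 : 1 ≤ m := by
    have : (0 : ℝ) < m := lt_of_le_of_lt (by positivity) hm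
    exact_mod_cast this
  have h1 := gam_chain_aux m hm1
  rw [div_lt_iff₀ hε0] at hm
  have h2 := gam_nonneg
  have h3 : gam * ((4 * m + 1) + 3 * m * Real.logb 2 3) = m * ε + 12 * m + gam := by
    rw [hε]; ring
  linarith

end Vale.Agent.P344.H260
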