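import Vale.Agent.P344.H260.Chain

/-!
# The cost of the chain algorithm
-/

namespace Vale.Agent.P344.H260

open Finset

theorem sum_three (b : ℕ) : ∑ i ∈ range b, (3 : ℝ) ^ i * (4 * i + 10) =
    (2 * b + 2) * 3 ^ b - 2 := by
  induction b with
  | zero => norm_num
  | succ b ih => rw [sum_range_succ, ih]; push_cast; ring

theorem sum_three' (b : ℕ) : ∑ i ∈ range b, (3 : ℝ) ^ i = (3 ^ b - 1) / 2 := by
  induction b with
  | zero => norm_num
  | succ b ih => rw [sum_range_succ, ih]; ring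

theorem sum_two (a : ℕ) (β : ℝ) : ∑ c ∈ range a, (2 : ℝ) ^ c * (3 / 2 * c + β) =
    2 ^ a * (3 / 2 * a + β - 3) - (β - 3) := by
  induction a with
  | zero => norm_num
  | succ a ih => rw [sum_range_succ, ih]; push_cast; ring

theorem sum_geom {v : ℝ} (hv2 : v ≤ 2) (a : ℕ) :
    (1 + ∑ c ∈ range a, v ^ c) * (v - 1) ≤ v ^ a := by
  have h1 : (∑ c ∈ range a, v ^ c) * (v - 1) = v ^ a - 1 := by
    rw [geom_sum_mul]
  have h2 : (1 + ∑ c ∈ range a, v ^ c) * (v - 1) = (v - 1) + (v ^ a - 1) := by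
    rw [add_mul, one_mul, h1]
  rw [h2]
  linarith

theorem sum_mul_pow {u : ℝ} (hu : 1 < u) (b : ℕ) :
    (∑ i ∈ range (b + 1), (i : ℝ) * u ^ i) * (u - 1) ≤ b * u ^ (b + 1) := by
  induction b with
  | zero => simp
  | succ b ih =>
    rw [sum_range_succ, add_mul]
    have h1 : 0 < u ^ (b + 1) := by positivity
    push_cast
    have h2 : ((b : ℝ) + 1) * u ^ (b + 1) * (u - 1) + b * u ^ (b + 1) ≤
        (b + 1) * u ^ (b + 1 + 1) := by
      have : ((b : ℝ) + 1) * u ^ (b + 1 + 1) =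
          ((b : ℝ) + 1) * u ^ (b + 1) * (u - 1) + (b + 1) * u ^ (b + 1) := by ring
      rw [this]
      nlinarith
    linarith

/-- The potential. -/
noncomputable def pot (u v : ℝ) (a b : ℕ) : ℝ :=
  2 ^ a * 3 ^ b * (3 / 2 * a + 2 * b + 1) + b * u ^ b * v ^ a

theorem step_le {u v : ℝ} (hv : 1 < v) (hv2 : v ≤ 2) (huv : (u - 1) * (v - 1) = 2) {a b : ℕ}
    (s : ℕ → ℕ → ℕ) (hs : ∀ c e, c ≤ a → e < b → (s c e : ℝ) ≤ pot u v c e)
    (hs0 : ∀ c < a, (s c 0 : ℝ) ≤ pot u v c 0) : (stepCost s a b : ℝ) ≤ pot u v a b := by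
  have hv1 : 0 < v - 1 := by linarith
  have hu3 : 3 ≤ u := by
    by_contra h
    push Not at h
    have : (u - 1) * (v - 1) < 2 := by nlinarith
    linarith
  set U : ℝ := ∑ i ∈ range b, (i : ℝ) * u ^ i with hU
  have h1 : ∀ c, c ≤ a → ∑ i ∈ range b, (2 * (s c i : ℝ) + 8 * (2 ^ c * 3 ^ i)) ≤
      2 ^ c * ((3 / 2 * c) * (3 ^ b - 1) + ((2 * b + 2) * 3 ^ b - 2)) + 2 * U * v ^ c := by
    intro c hc
    have h2 : ∑ i ∈ range b, (2 * (s c i : ℝ) + 8 * (2 ^ c * 3 ^ i)) ≤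
        ∑ i ∈ range b, (2 ^ c * (3 * c) * (3 : ℝ) ^ i + 2 ^ c * ((3 : ℝ) ^ i * (4 * i + 10)) +
          2 * v ^ c * ((i : ℝ) * u ^ i)) := by
      refine sum_le_sum fun i hi => ?_
      have h3 := hs c i hc (mem_range.mp hi)
      unfold pot at h3
      calc 2 * (s c i : ℝ) + 8 * (2 ^ c * 3 ^ i)
          ≤ 2 * (2 ^ c * 3 ^ i * (3 / 2 * c + 2 * i + 1) + i * u ^ i * v ^ c) +
            8 * (2 ^ c * 3 ^ i) := by linarith
        _ = 2 ^ c * (3 * c) * (3 : ℝ) ^ i + 2 ^ c * ((3 : ℝ) ^ i * (4 * i + 10)) +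
            2 * v ^ c * ((i : ℝ) * u ^ i) := by ring
    refine h2.trans (le_of_eq ?_)
    rw [sum_add_distrib, sum_add_distrib, ← mul_sum, ← mul_sum, ← mul_sum, sum_three, sum_three']
    ring
  -- the bottom class
  have hA : ((∑ i ∈ range b, (2 * s 0 i + 8 * 3 ^ i) : ℕ) : ℝ) ≤ (2 * b + 2) * 3 ^ b - 2 + 2 * U := by
    have h2 := h1 0 (Nat.zero_le _)
    push_cast at h2 ⊢
    calc ∑ i ∈ range b, (2 * (s 0 i : ℝ) + 8 * 3 ^ i)
        = ∑ i ∈ range b, (2 * (s 0 i : ℝ) + 8 * (2 ^ 0 * 3 ^ i)) := by simp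
      _ ≤ _ := h2
      _ = (2 * b + 2) * 3 ^ b - 2 + 2 * U := by ring
  -- the odd classes
  have hB : ∀ c < a, ((oddCost s b c + 2 * (2 ^ c * 3 ^ b) : ℕ) : ℝ) ≤
      3 ^ b * (2 ^ c * (3 / 2 * c + (2 * b + 4))) + 2 * U * v ^ c := by
    intro c hc
    have h2 := h1 c hc.le
    have h3 := hs0 c hc
    unfold pot at h3
    unfold oddCost
    push_cast
    simp only [Nat.cast_zero, pow_zero, mul_zero, zero_mul, add_zero, mul_one] at h3
    have h4 : 2 ^ c * ((3 / 2 * (c : ℝ)) * (3 ^ b - 1) + ((2 * b + 2) * 3 ^ b - 2)) =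
      3 ^ b * (2 ^ c * (3 / 2 * c + (2 * b + 4))) - 2 ^ c * (3 / 2 * c + 1) - 2 ^ c -
        2 * (2 ^ c * 3 ^ b) := by ring
    linarith
  have hC : ((∑ c ∈ range a, (oddCost s b c + 2 * (2 ^ c * 3 ^ b)) : ℕ) : ℝ) ≤
      3 ^ b * (2 ^ a * (3 / 2 * a + (2 * b + 4) - 3) - ((2 * b + 4) - 3)) +
        2 * U * ∑ c ∈ range a, v ^ c := by
    rw [Nat.cast_sum]
    refine (sum_le_sum fun c hc => hB c (mem_range.mp hc)).trans (le_of_eq ?_)
    rw [sum_add_distrib, ← mul_sum, ← mul_sum, sum_two]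
  -- the exponential part
  have hD : (3 : ℝ) ^ b - 2 + 2 * U * (1 + ∑ c ∈ range a, v ^ c) ≤ b * u ^ b * v ^ a := by
    rcases Nat.eq_zero_or_pos b with rfl | hb
    · simp only [hU, range_zero, sum_empty, pow_zero, Nat.cast_zero, zero_mul, mul_zero, add_zero]
      norm_num
    · obtain ⟨b', rfl⟩ : ∃ b', b = b' + 1 := ⟨b - 1, by omega⟩
      have hu1 : 1 < u := by linarith
      have g1 := sum_mul_pow hu1 b'
      have g2 := sum_geom hv2 a
      rw [← hU] at g1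
      have hU0 : 0 ≤ U := sum_nonneg fun i _ => by positivity
      have hV0 : 0 ≤ 1 + ∑ c ∈ range a, v ^ c := by
        have : 0 ≤ ∑ c ∈ range a, v ^ c := sum_nonneg fun i _ => by positivity
        linarith
      have hva : 1 ≤ v ^ a := one_le_pow₀ hv.le
      have g3 : (U * (u - 1)) * ((1 + ∑ c ∈ range a, v ^ c) * (v - 1)) ≤
          (b' * u ^ (b' + 1)) * v ^ a :=
        mul_le_mul g1 g2 (mul_nonneg hV0 hv1.le) (by positivity)
      have g4 : (U * (u - 1)) * ((1 + ∑ c ∈ range a, v ^ c) * (v - 1)) =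
          2 * U * (1 + ∑ c ∈ range a, v ^ c) := by
        calc (U * (u - 1)) * ((1 + ∑ c ∈ range a, v ^ c) * (v - 1))
            = ((u - 1) * (v - 1)) * U * (1 + ∑ c ∈ range a, v ^ c) := by ring
          _ = _ := by rw [huv]
      rw [g4] at g3
      have g5 : (3 : ℝ) ^ (b' + 1) ≤ u ^ (b' + 1) * v ^ a := by
        have : (3 : ℝ) ^ (b' + 1) ≤ u ^ (b' + 1) := pow_le_pow_left₀ (by norm_num) hu3 _
        nlinarith [pow_pos (show (0 : ℝ) < u by linarith) (b' + 1)]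
      push_cast
      nlinarith
  unfold stepCost pot
  rw [Nat.cast_add]
  have hE : (2 * (b : ℝ) + 2) * 3 ^ b - 2 + 2 * U +
      (3 ^ b * (2 ^ a * (3 / 2 * a + (2 * b + 4) - 3) - ((2 * b + 4) - 3)) +
        2 * U * ∑ c ∈ range a, v ^ c) =
      2 ^ a * 3 ^ b * (3 / 2 * a + 2 * b + 1) + (3 ^ b - 2 +
        2 * U * (1 + ∑ c ∈ range a, v ^ c)) := by ring
  linarith

/-- The cost of the chain algorithm, up to scalars. -/
theorem chains_bound {u v : ℝ} (hv : 1 < v) (hv2 : v ≤ 2) (huv : (u - 1) * (v - 1) = 2)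
    (a b : ℕ) : ∃ s : ℕ, Sc (2 ^ a * 3 ^ b) s ∧ (s : ℝ) ≤ pot u v a b := by
  suffices H : ∀ n a b : ℕ, a + b = n → ∃ s : ℕ, Sc (2 ^ a * 3 ^ b) s ∧ (s : ℝ) ≤ pot u v a b from
    H _ a b rfl
  intro n
  induction n using Nat.strong_induction_on with
  | _ n ih =>
    intro a b hab
    have ih' : ∀ c e : ℕ, ∃ s : ℕ, c + e < n → Sc (2 ^ c * 3 ^ e) s ∧ (s : ℝ) ≤ pot u v c e := by
      intro c e
      by_cases h : c + e < n
      · obtain ⟨s, hs⟩ := ih (c + e) h c e rfl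
        exact ⟨s, fun _ => hs⟩
      · exact ⟨0, fun h' => absurd h' h⟩
    choose s hs using ih'
    refine ⟨stepCost s a b, Sc.chains s (fun c e hc he => (hs c e (by omega)).1) (fun c hc => ?_),
      step_le hv hv2 huv s (fun c e hc he => (hs c e (by omega)).2)
        (fun c hc => (hs c 0 (by omega)).2)⟩
    have := (hs c 0 (by omega)).1
    rwa [pow_zero, mul_one] at this

theorem L_two_three {v : ℝ} (hv : 1 < v) (hv2 : v ≤ 2) (a b : ℕ) :
    (L (2 ^ a * 3 ^ b) : ℝ) ≤ 2 ^ a * 3 ^ b * (3 / 2 * a + 2 * b + 2) +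
      b * ((v + 1) / (v - 1)) ^ b * v ^ a := by
  have hv1 : v - 1 ≠ 0 := by linarith
  have huv : ((v + 1) / (v - 1) - 1) * (v - 1) = 2 := by
    field_simp
    ring
  obtain ⟨s, hs, hb⟩ := chains_bound hv hv2 huv a b
  have h1 : (L (2 ^ a * 3 ^ b) : ℝ) ≤ s + 2 ^ a * 3 ^ b := by
    exact_mod_cast hs.L_le
  unfold pot at hb
  calc (L (2 ^ a * 3 ^ b) : ℝ) ≤ s + 2 ^ a * 3 ^ b := h1
    _ ≤ _ := by linarith

end Vale.Agent.P344.H260
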