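import Vale.Agent.P344.H260.Butterfly

/-!
# Tables of scales
-/

namespace Vale.Agent.P344.H260

/-- `f 0 + ... + f (n - 1)`. -/
def tot (f : ℕ → ℕ) : ℕ → ℕ
  | 0 => 0
  | n + 1 => tot f n + f n

theorem tot_eq (f : ℕ → ℕ) (n : ℕ) : tot f n = ∑ i ∈ Finset.range n, f i := by
  induction n with
  | zero => rfl
  | succ n ih => rw [Finset.sum_range_succ, ← ih]; rfl

/-- A table of exponents, packed into one number: `n` binary digits for each butterfly. -/
def tab (n T : ℕ) : ℕ → ℕ → ℕ → ℕ
  | 0, b, _ => (T >>> (n * (b % 2 ^ n))) % 2 ^ n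
  | l + 1, b, k => (T >>> (n * (l * 2 ^ n + b * 2 ^ l + k))) % 2 ^ n

/-- The number of scalar multiplications inside the network given by a table. -/
def count (n T : ℕ) : ℕ :=
  tot (fun l => tot (fun b => tot (fun k => bad n (tab n T) l b k) (2 ^ l)) (2 ^ (n - l))) (n + 1)

theorem ker_table (n T : ℕ) : Ker (2 ^ (n + 1)) ((n + 1) * 2 ^ (n + 1) + count n T) := by
  have h := ker_network n (tab n T)
  unfold count
  simp only [tot_eq]
  exact h

end Vale.Agent.P344.H260
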