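import Vale.Agent.P344.H260.Kernel

/-!
# Classes of indices, scales, and blocks of radix 3
-/

namespace Vale.Agent.P344.H260

open Set

/-- `e^{2πi/3}`. -/
noncomputable def om : ℂ := zt 3

theorem om_cube : om ^ 3 = 1 := zt_pow_self three_ne_zero

theorem om_ne : om ^ 2 ≠ 1 := by
  intro h
  have h1 := (zt_prim (n := 3) three_ne_zero).dvd_of_pow_eq_one 2 h
  omega

/-- `1 / (ω² - 1)`. -/
noncomputable def kap : ℂ := (om ^ 2 - 1)⁻¹

theorem kap_mul : kap * (om ^ 2 - 1) = 1 := inv_mul_cancel₀ (sub_ne_zero.mpr om_ne)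

theorem kap_ne : kap ≠ 0 := inv_ne_zero (sub_ne_zero.mpr om_ne)

theorem om_ne_zero : om ≠ 0 := zt_ne_zero 3

/-- The scale of the value with index `k` after `e` levels of radix 3. -/
noncomputable def G : ℕ → ℕ → ℂ
  | 0, _ => 1
  | e + 1, k => kap * G e k * (if (k / 3 ^ e) % 3 = 0 then om ^ 2 else 1)

theorem G_ne_zero (e k : ℕ) : G e k ≠ 0 := by
  induction e with
  | zero => exact one_ne_zero
  | succ e ih =>
    unfold G
    refine mul_ne_zero (mul_ne_zero kap_ne ih) ?_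
    split_ifs
    · exact pow_ne_zero _ om_ne_zero
    · exact one_ne_zero

theorem G_add (e k t : ℕ) : G e (k + 3 ^ e * t) = G e k := by
  induction e generalizing t with
  | zero => rfl
  | succ e ih =>
    unfold G
    have h1 : k + 3 ^ (e + 1) * t = k + 3 ^ e * (3 * t) := by rw [pow_succ]; ring
    have h2 : (k + 3 ^ e * (3 * t)) / 3 ^ e = k / 3 ^ e + 3 * t :=
      Nat.add_mul_div_left _ _ (by positivity)
    rw [h1, ih, h2, Nat.add_mul_mod_self_left]

/-- One addition. -/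
theorem Can.add {X : Type} (u v : X → ℂ) : Can {u, v} 1 {u + v} := by
  intro V _ hV
  obtain ⟨U, hU, _, h⟩ := has_add .zero (hV u (by simp)) (hV v (by simp))
  refine ⟨1, le_rfl, U, hU, ?_⟩
  rintro w rfl
  exact h

/-- A block of radix 3: six gates. -/
theorem Can.tri {X : Type} (u₀ u₁ u₂ : X → ℂ) : Can {u₀, u₁, u₂} 6
    {kap • (om ^ 2 • u₀ + u₁ + u₂), kap • (u₀ + om ^ 2 • u₁ + u₂),
      kap • (u₀ + u₁ + om ^ 2 • u₂)} := by
  have h1 : Can {u₀, u₁, u₂} 1 ({u₀, u₁, u₂} ∪ {u₀ + u₁}) :=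
    (Can.of_subset (Subset.refl _) 0).union ((Can.add u₀ u₁).mono (by
      rintro w (rfl | rfl)
      · exact Or.inl rfl
      · exact Or.inr (Or.inl rfl)) le_rfl Subset.rfl)
  have h2 : Can ({u₀, u₁, u₂} ∪ {u₀ + u₁}) 1 ({u₀, u₁, u₂} ∪ {u₀ + u₁ + u₂}) :=
    ((Can.of_subset subset_union_left 0).union ((Can.add (u₀ + u₁) u₂).mono (by
      rintro w (rfl | rfl)
      · exact Or.inr rfl
      · exact Or.inl (Or.inr (Or.inr rfl))) le_rfl Subset.rfl))
  have h3 : Can ({u₀, u₁, u₂} ∪ {u₀ + u₁ + u₂}) 1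
      ({u₀, u₁, u₂} ∪ {kap • (u₀ + u₁ + u₂)}) :=
    (Can.of_subset subset_union_left 0).union (Can.smul (Or.inr rfl) kap)
  set t := kap • (u₀ + u₁ + u₂) with ht
  have h4 : Can ({u₀, u₁, u₂} ∪ {t}) 3 ({t + u₀} ∪ {t + u₁} ∪ {t + u₂}) := by
    refine (((Can.add t u₀).mono ?_ le_rfl Subset.rfl).union
      ((Can.add t u₁).mono ?_ le_rfl Subset.rfl)).union
      ((Can.add t u₂).mono ?_ le_rfl Subset.rfl)
    · rintro w (rfl | rfl)
      · exact Or.inr rfl
      · exact Or.inl (Or.inl rfl)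
    · rintro w (rfl | rfl)
      · exact Or.inr rfl
      · exact Or.inl (Or.inr (Or.inl rfl))
    · rintro w (rfl | rfl)
      · exact Or.inr rfl
      · exact Or.inl (Or.inr (Or.inr rfl))
  have hk := kap_mul
  have e0 : kap • (om ^ 2 • u₀ + u₁ + u₂) = t + u₀ := by
    funext x
    simp only [ht, Pi.smul_apply, Pi.add_apply, smul_eq_mul]
    linear_combination (u₀ x) * hk
  have e1 : kap • (u₀ + om ^ 2 • u₁ + u₂) = t + u₁ := by
    funext x
    simp only [ht, Pi.smul_apply, Pi.add_apply, smul_eq_mul]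
    linear_combination (u₁ x) * hk
  have e2 : kap • (u₀ + u₁ + om ^ 2 • u₂) = t + u₂ := by
    funext x
    simp only [ht, Pi.smul_apply, Pi.add_apply, smul_eq_mul]
    linear_combination (u₂ x) * hk
  rw [e0, e1, e2]
  refine (((h1.trans h2).trans h3).trans h4).mono Subset.rfl le_rfl ?_
  rintro w (rfl | rfl | rfl)
  · exact Or.inl (Or.inl rfl)
  · exact Or.inl (Or.inr rfl)
  · exact Or.inr rfl

/-- Availability up to sign, along a sequence with `u (k + p) = ± u k`. -/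
theorem Has.shift {X : Type} {V : Set (ℕ × (X → ℂ))} {u : ℕ → X → ℂ} {p : ℕ}
    (h : ∀ k, u (k + p) = u k ∨ u (k + p) = -u k) (k t : ℕ) : Has V (u (k + p * t)) ↔ Has V (u k) := by
  induction t with
  | zero => simp
  | succ t ih =>
    have h1 : k + p * (t + 1) = k + p * t + p := by ring
    rw [h1, ← ih]
    rcases h (k + p * t) with h2 | h2
    · rw [h2]
    · rw [h2]
      exact ⟨fun h => by simpa using h.neg, fun h => h.neg⟩

/-- All blocks of radix 3 of one level. -/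
theorem tri_level {X : Type} {S : Set (X → ℂ)} {Q e : ℕ} (hQ : Q % 3 ≠ 0) {ε : ℂ}
    (hε : ε = 1 ∨ ε = -1) (C L₁ L₂ Y₁ Y₂ : ℕ → X → ℂ)
    (hC : ∀ k, C (k + Q * 3 ^ e) = ε • C k)
    (h₁ : ∀ k, L₁ (k + Q * 3 ^ e) = (ε * om) • L₁ k)
    (h₂ : ∀ k, L₂ (k + Q * 3 ^ e) = (ε * om ^ 2) • L₂ k)
    (hCS : ∀ k, G e k • C k ∈ S)
    (hY₁ : ∀ k, ∃ c : ℂ, L₁ k = c • Y₁ (k % (Q * 3 ^ e)))
    (hY₂ : ∀ k, ∃ c : ℂ, L₂ k = c • Y₂ (k % (Q * 3 ^ e)))
    (hS₁ : ∀ k < Q * 3 ^ e, Y₁ k ∈ S) (hS₂ : ∀ k < Q * 3 ^ e, Y₂ k ∈ S) :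
    Can S (8 * (Q * 3 ^ e)) {u | ∃ k, u = G (e + 1) k • (C k + L₁ k + L₂ k)} := by
  set n := Q * 3 ^ e with hn
  have hn0 : 0 < n := Nat.mul_pos (Nat.pos_of_ne_zero (by rintro rfl; simp at hQ)) (by positivity)
  set P : ℕ → X → ℂ := fun k => G (e + 1) k • (C k + L₁ k + L₂ k) with hP
  have hε2 : ε * ε = 1 := by rcases hε with rfl | rfl <;> norm_num
  have ho := om_cube
  -- the digit
  have hdig : ∀ κ s : ℕ, (κ + n * s) / 3 ^ e = κ / 3 ^ e + Q * s := by
    intro κ s
    have : κ + n * s = κ + 3 ^ e * (Q * s) := by rw [hn]; ring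
    rw [this, Nat.add_mul_div_left _ _ (by positivity)]
  -- quasi-periodicity of `P`
  have hGper : ∀ k, G (e + 1) (k + 3 * n) = G (e + 1) k := by
    intro k
    have : k + 3 * n = k + 3 ^ (e + 1) * Q := by rw [hn, pow_succ]; ring
    rw [this, G_add]
  have hPper : ∀ k, P (k + 3 * n) = P k ∨ P (k + 3 * n) = -P k := by
    intro k
    have e1 : k + 3 * n = k + n + n + n := by ring
    have e2 : C (k + 3 * n) + L₁ (k + 3 * n) + L₂ (k + 3 * n) = ε • (C k + L₁ k + L₂ k) := by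
      rw [e1, hC, hC, hC, h₁, h₁, h₁, h₂, h₂, h₂]
      funext x
      simp only [Pi.smul_apply, Pi.add_apply, smul_eq_mul]
      have a1 : ε * om * (ε * om * (ε * om * L₁ k x)) = ε * (ε * ε) * om ^ 3 * L₁ k x := by ring
      have a2 : ε * om ^ 2 * (ε * om ^ 2 * (ε * om ^ 2 * L₂ k x)) =
          ε * (ε * ε) * (om ^ 3) ^ 2 * L₂ k x := by ring
      have a3 : ε * (ε * (ε * C k x)) = ε * (ε * ε) * C k x := by ring
      rw [a1, a2, a3, ho, hε2]
      ring
    simp only [hP]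
    rw [hGper, e2]
    rcases hε with rfl | rfl
    · left; rw [one_smul]
    · right; rw [neg_smul, one_smul, smul_neg]
  -- one block
  have block : ∀ κ < n, ∃ s < 3, Can S 8 {u | ∃ t < 3, u = P (κ + n * s + n * t)} := by
    intro κ hκ
    have hs : ∃ s < 3, (κ / 3 ^ e + Q * s) % 3 = 0 := by
      have c1 : Q % 3 = 1 ∨ Q % 3 = 2 := by omega
      have c2 : (κ / 3 ^ e) % 3 = 0 ∨ (κ / 3 ^ e) % 3 = 1 ∨ (κ / 3 ^ e) % 3 = 2 := by omega
      rcases c2 with c2 | c2 | c2
      · exact ⟨0, by norm_num, by omega⟩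
      · rcases c1 with c1 | c1
        · exact ⟨2, by norm_num, by omega⟩
        · exact ⟨1, by norm_num, by omega⟩
      · rcases c1 with c1 | c1
        · exact ⟨1, by norm_num, by omega⟩
        · exact ⟨2, by norm_num, by omega⟩
    obtain ⟨s, hs3, hs0⟩ := hs
    refine ⟨s, hs3, ?_⟩
    set k := κ + n * s with hk
    have hkm : k % n = κ := by
      rw [hk, Nat.add_mul_mod_self_left, Nat.mod_eq_of_lt hκ]
    set g := G e k with hg
    obtain ⟨c₁, hc₁⟩ := hY₁ k
    obtain ⟨c₂, hc₂⟩ := hY₂ k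
    rw [hkm] at hc₁ hc₂
    -- scaled leaves
    have st1 : Can S 2 {g • C k, (g * om ^ 2) • L₁ k, (g * om ^ 2) • L₂ k} := by
      have a0 : Can S 0 {g • C k} := Can.of_subset (by rintro w rfl; exact hCS k) 0
      have a1 : Can S 1 {(g * om ^ 2) • L₁ k} := by
        have := Can.smul (hS₁ κ hκ) (g * om ^ 2 * c₁)
        rwa [mul_smul, ← hc₁] at this
      have a2 : Can S 1 {(g * om ^ 2) • L₂ k} := by
        have := Can.smul (hS₂ κ hκ) (g * om ^ 2 * c₂)
        rwa [mul_smul, ← hc₂] at this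
      refine ((a0.union a1).union a2).mono Subset.rfl le_rfl ?_
      rintro w (rfl | rfl | rfl)
      · exact Or.inl (Or.inl rfl)
      · exact Or.inl (Or.inr rfl)
      · exact Or.inr rfl
    have st2 := st1.trans (Can.tri (g • C k) ((g * om ^ 2) • L₁ k) ((g * om ^ 2) • L₂ k))
    -- the three outputs
    have d0 : (k / 3 ^ e) % 3 = 0 := by rw [hk, hdig]; exact hs0
    have gk : ∀ t, G e (k + n * t) = g := by
      intro t
      have : k + n * t = k + 3 ^ e * (Q * t) := by rw [hn]; ring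
      rw [this, G_add]
    have p0 : P k = kap • (om ^ 2 • (g • C k) + (g * om ^ 2) • L₁ k + (g * om ^ 2) • L₂ k) := by
      simp only [hP]
      unfold G
      rw [if_pos d0]
      funext x
      simp only [Pi.smul_apply, Pi.add_apply, smul_eq_mul]
      ring
    have dk : ∀ t, t = 1 ∨ t = 2 → ((k + n * t) / 3 ^ e) % 3 ≠ 0 := by
      intro t ht
      rw [hdig]
      rcases ht with rfl | rfl <;> omega
    have p1 : P (k + n) = ε • (kap • (g • C k + om ^ 2 • ((g * om ^ 2) • L₁ k) +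
        (g * om ^ 2) • L₂ k)) := by
      have q1 := dk 1 (Or.inl rfl)
      have q2 := gk 1
      rw [mul_one] at q1 q2
      simp only [hP]
      unfold G
      rw [if_neg q1, q2, hC, h₁, h₂]
      funext x
      simp only [Pi.smul_apply, Pi.add_apply, smul_eq_mul]
      linear_combination (-(ε * kap * g * om * L₁ k x)) * ho
    have p2 : P (k + n * 2) = kap • (g • C k + (g * om ^ 2) • L₁ k +
        om ^ 2 • ((g * om ^ 2) • L₂ k)) := by
      have q1 := dk 2 (Or.inr rfl)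
      have q2 := gk 2
      have q3 : k + n * 2 = k + n + n := by ring
      simp only [hP]
      unfold G
      rw [if_neg q1, q2, q3, hC, hC, h₁, h₁, h₂, h₂]
      funext x
      simp only [Pi.smul_apply, Pi.add_apply, smul_eq_mul]
      linear_combination (kap * g * (C k x + om ^ 2 * L₁ k x + om ^ 4 * L₂ k x)) * hε2
    refine st2.post ?_
    rintro V hV u ⟨t, ht, rfl⟩
    have ht' : t = 0 ∨ t = 1 ∨ t = 2 := by omega
    rcases ht' with rfl | rfl | rfl
    · rw [mul_zero, add_zero, p0]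
      exact hV _ (by simp)
    · rw [mul_one, p1]
      have h1 := hV _ (show kap • (g • C k + om ^ 2 • ((g * om ^ 2) • L₁ k) +
        (g * om ^ 2) • L₂ k) ∈ _ from Or.inr (Or.inl rfl))
      rcases hε with rfl | rfl
      · rwa [one_smul]
      · rw [neg_smul, one_smul]; exact h1.neg
    · rw [p2]
      exact hV _ (Or.inr (Or.inr rfl))
  choose! s hs hb using block
  have all := Can.range n (fun _ => 8) _ hb
  have hcost : ∑ i ∈ Finset.range n, 8 = 8 * n := by simp [mul_comm]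
  rw [hcost] at all
  refine all.post ?_
  rintro V hV u ⟨k, rfl⟩
  set κ := k % n with hκ
  have hκn : κ < n := Nat.mod_lt _ hn0
  have hk : k = κ + n * (k / n) := (Nat.mod_add_div k n).symm
  set t := k / n with ht
  have hsκ := hs κ hκn
  set t' := (t + 6 - s κ) % 3 with ht'
  have h1 : Has V (P (κ + n * s κ + n * t')) :=
    hV _ ⟨κ, hκn, t', Nat.mod_lt _ (by norm_num), rfl⟩
  have h2 := (Has.shift (V := V) hPper (κ + n * s κ + n * t')
    ((t + 6 - s κ) / 3)).mpr h1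
  have h3 := (Has.shift (V := V) hPper k 2)
  have h4 : κ + n * s κ + n * t' + 3 * n * ((t + 6 - s κ) / 3) = k + 3 * n * 2 := by
    have h5 : t' + 3 * ((t + 6 - s κ) / 3) = t + 6 - s κ := Nat.mod_add_div _ _
    have h6 : s κ + (t + 6 - s κ) = t + 6 :=
      Nat.add_sub_cancel' ((Nat.le_of_lt (lt_trans hsκ (by norm_num))).trans (Nat.le_add_left 6 t))
    calc κ + n * s κ + n * t' + 3 * n * ((t + 6 - s κ) / 3)
        = κ + n * (s κ + (t' + 3 * ((t + 6 - s κ) / 3))) := by ring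
      _ = κ + n * (t + 6) := by rw [h5, h6]
      _ = k + 3 * n * 2 := by rw [hk]; ring
  rw [h4] at h2
  exact h3.mp h2

end Vale.Agent.P344.H260
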